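import Vale.Agent.P088.R2.H972.P5N.Main
import Vale.Agent.P088.R2.H354.N.S11
import Vale.Agent.P088.R2.H935.N.Int

/-!
# P088, stage 4, row P5N, closed
-/

open MeasureTheory Set
open scoped ContDiff Matrix

noncomputable section

namespace Vale.Agent.P088.S4.H972

open Vale.Agent.P088.LR Vale.Agent.P088.LR.U Vale.Agent.P088.LR.H158
open Vale.Agent.P088.PJ

theorem intN' : IntN := H935.intL

theorem s11N' : S11N := by
  intro n N
  obtain ⟨k, ε, hε, h⟩ := HY.TN.s11N n N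
  exact ⟨k, ε, hε, fun d G hN h3 O χ hO hO2 hO3 hχ hχ0 hχ1 =>
    h G d.j₀ d.s₁ d.s₂ d.P₁ d.P₂ d.G₁ d.G₂ d.β d.Y d.D hN.oG hN.b1 hN.rp.rl h3 O χ hO hO2 hO3
      hχ hχ0 hχ1⟩

/-- **Row P5N.** -/
theorem rowP5N : RowP5N := rowP5N_of intN' s11N'

end Vale.Agent.P088.S4.H972
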