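import Vale.Agent.P088.R2.H455.S4.SpecB

/-!
# P088, stage 4, P5N: pointwise bound of the form
-/

open MeasureTheory Set
open scoped ContDiff Matrix

noncomputable section

namespace Vale.Agent.P088.S4.H972

open Vale.Agent.P088.LR Vale.Agent.P088.LR.U Vale.Agent.P088.LR.H158
open Vale.Agent.P088.PJ
open Vale.Agent.P088.HY (VV)
open Vale.Agent.P088.HY.T3 (Eb e0 Ao Ac iv)
open Vale.Agent.P088.HY.T4 (gx kk Oc Zq cg Lvl)

variable {n N : ℕ}

theorem tr_bd {A B : Matrix (Fin N) (Fin N) ℂ} {α β : ℝ} (hα : 0 ≤ α) (hA : ∀ a b, ‖A a b‖ ≤ α)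
    (hB : ∀ a b, ‖B a b‖ ≤ β) : ‖(A * B).trace‖ ≤ N * (N * (α * β)) := by
  have h : (A * B).trace = ∑ a, ∑ b, A a b * B b a := by
    simp only [Matrix.trace, Matrix.diag, Matrix.mul_apply]
  rw [h]
  calc ‖∑ a, ∑ b, A a b * B b a‖ ≤ ∑ a : Fin N, ∑ b : Fin N, α * β :=
        (norm_sum_le _ _).trans (Finset.sum_le_sum fun a _ =>
          (norm_sum_le _ _).trans (Finset.sum_le_sum fun b _ => by
            rw [norm_mul]
            exact mul_le_mul (hA a b) (hB b a) (norm_nonneg _) hα))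
    _ = N * (N * (α * β)) := by
        simp only [Finset.sum_const, Finset.card_univ, Fintype.card_fin, nsmul_eq_mul]

/-- Pointwise bounds of the coefficients. -/
structure CoP (d : PD n N) (x : V n) : Prop where
  a1 : ∀ i j, |d.s₁ x i j| ≤ 2
  b1 : ∀ a b, ‖d.P₂ x a b‖ ≤ 2
  c1 : ∀ i a b, ‖d.G₂ i x a b‖ ≤ 2

/-- The differences are at most `U` at `x`. -/
structure DiP (d : PD n N) (U : ℝ) (x : V n) : Prop where
  ds : ∀ i j, |d.s₂ x i j - d.s₁ x i j| ≤ U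
  dP : ∀ a b, ‖d.P₂ x a b - d.P₁ x a b‖ ≤ U
  dG : ∀ i a b, ‖d.G₂ i x a b - d.G₁ i x a b‖ ≤ U

theorem Zt_bd {d : PD n N} {U : ℝ} {x : V n} (hc : CoP d x) (hd : DiP d U x) (hU : 0 ≤ U)
    (i j : Fin n) (a b : Fin N) : ‖Zt d.s₁ d.s₂ d.P₁ d.P₂ i j x a b‖ ≤ 4 * U := by
  have e : Zt d.s₁ d.s₂ d.P₁ d.P₂ i j x a b =
      ((d.s₂ x i j - d.s₁ x i j : ℝ) : ℂ) * d.P₂ x a b +
        (d.s₁ x i j : ℂ) * (d.P₂ x a b - d.P₁ x a b) := by
    simp only [Zt, TP, Matrix.sub_apply, Matrix.smul_apply, smul_eq_mul]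
    push_cast
    ring
  rw [e]
  refine (norm_add_le _ _).trans ?_
  rw [norm_mul, norm_mul, Complex.norm_real, Complex.norm_real, Real.norm_eq_abs,
    Real.norm_eq_abs]
  have h1 := mul_le_mul (hd.ds i j) (hc.b1 a b) (norm_nonneg _) hU
  have h2 := mul_le_mul (hc.a1 i j) (hd.dP a b) (norm_nonneg _) (by norm_num)
  linarith

theorem Qt_bd {d : PD n N} {U : ℝ} {x : V n} (hc : CoP d x) (hd : DiP d U x) (hU : 0 ≤ U)
    (i : Fin n) (a b : Fin N) : ‖Qt d.s₁ d.s₂ d.G₁ d.G₂ i x a b‖ ≤ n * (4 * U) := by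
  have e : Qt d.s₁ d.s₂ d.G₁ d.G₂ i x a b =
      ∑ j, (((d.s₂ x i j - d.s₁ x i j : ℝ) : ℂ) * d.G₂ j x a b +
        (d.s₁ x i j : ℂ) * (d.G₂ j x a b - d.G₁ j x a b)) := by
    simp only [Qt, kp, Matrix.sub_apply, Matrix.sum_apply, Matrix.smul_apply, smul_eq_mul]
    rw [← Finset.sum_sub_distrib]
    refine Finset.sum_congr rfl fun j _ => ?_
    push_cast
    ring
  rw [e]
  calc _ ≤ ∑ _j : Fin n, 4 * U := (norm_sum_le _ _).trans (Finset.sum_le_sum fun j _ => by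
        refine (norm_add_le _ _).trans ?_
        rw [norm_mul, norm_mul, Complex.norm_real, Complex.norm_real, Real.norm_eq_abs,
          Real.norm_eq_abs]
        have h1 := mul_le_mul (hd.ds i j) (hc.c1 j a b) (norm_nonneg _) hU
        have h2 := mul_le_mul (hc.a1 i j) (hd.dG j a b) (norm_nonneg _) (by norm_num)
        linarith)
    _ = n * (4 * U) := by
        simp only [Finset.sum_const, Finset.card_univ, Fintype.card_fin, nsmul_eq_mul]

/-- The constant of `dgD_bd`. -/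
def cdg (n N : ℕ) : ℝ := n * (n * (N * (N * 4))) + n * (N * (N * (n * 4)))

theorem cdg_nn (n N : ℕ) : 0 ≤ cdg n N := by unfold cdg; positivity

/-- The form is bounded by the differences of the data and the derivatives of `K`. -/
theorem dgD_bd {d : PD n N} {U M : ℝ} {x : V n} {K : KC n N} (hc : CoP d x) (hd : DiP d U x)
    (hU : 0 ≤ U) (h2 : ∀ i j a b, ‖dxk i (dyk j K) (x, x) a b‖ ≤ M)
    (h1 : ∀ i a b, ‖dxk i K (x, x) a b‖ ≤ M) : ‖dgD d K x‖ ≤ cdg n N * (U * M) := by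
  unfold dgD dgB
  refine (norm_sub_le _ _).trans ?_
  have e1 : ‖∑ i, ∑ j, (Zt d.s₁ d.s₂ d.P₁ d.P₂ j i x * dxk i (dyk j K) (x, x)).trace‖ ≤
      n * (n * (N * (N * (4 * U * M)))) := by
    calc _ ≤ ∑ _i : Fin n, ∑ _j : Fin n, (N : ℝ) * (N * (4 * U * M)) :=
          (norm_sum_le _ _).trans (Finset.sum_le_sum fun i _ =>
            (norm_sum_le _ _).trans (Finset.sum_le_sum fun j _ =>
              tr_bd (by positivity) (fun a b => Zt_bd hc hd hU j i a b)
                (fun a b => h2 i j a b)))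
      _ = _ := by
          simp only [Finset.sum_const, Finset.card_univ, Fintype.card_fin, nsmul_eq_mul]
  have e2 : ‖∑ i, (Qt d.s₁ d.s₂ d.G₁ d.G₂ i x * dxk i K (x, x)).trace‖ ≤
      n * (N * (N * (n * (4 * U) * M))) := by
    calc _ ≤ ∑ _i : Fin n, (N : ℝ) * (N * (n * (4 * U) * M)) :=
          (norm_sum_le _ _).trans (Finset.sum_le_sum fun i _ =>
              tr_bd (by positivity) (fun a b => Qt_bd hc hd hU i a b)
                (fun a b => h1 i a b))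
      _ = _ := by
          simp only [Finset.sum_const, Finset.card_univ, Fintype.card_fin, nsmul_eq_mul]
  refine (add_le_add e1 e2).trans (le_of_eq ?_)
  unfold cdg
  ring

/-- Where the data agree the form vanishes. -/
theorem dgD_zero {d : PD n N} {x : V n} (K : KC n N) (hs : d.s₂ x = d.s₁ x)
    (hP : d.P₂ x = d.P₁ x) (hG : ∀ i, d.G₂ i x = d.G₁ i x) : dgD d K x = 0 := by
  unfold dgD dgB
  have e1 : ∀ i j, Zt d.s₁ d.s₂ d.P₁ d.P₂ i j x = 0 := fun i j => by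
    simp only [Zt, TP, hs, hP, sub_self]
  have e2 : ∀ i, Qt d.s₁ d.s₂ d.G₁ d.G₂ i x = 0 := fun i => by
    simp only [Qt, kp, hs, hG, sub_self]
  simp only [e1, e2, zero_mul, Matrix.trace_zero, Finset.sum_const_zero, sub_zero]

theorem CoP_of {k : ℕ} {ε : ℝ} (hε : ε ≤ 1) {d : PD n N} {G : Set (V n)} (h : NrmN k ε d G)
    (x : V n) : CoP d x := by
  have h0 : ∀ {F : Type} [NormedAddCommGroup F] [NormedSpace ℝ F] {f : V n → F},
      Cl k ε f → ‖f x‖ ≤ 1 := by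
    intro F _ _ f hf
    have := hf 0 (Nat.zero_le _) x
    rw [norm_iteratedFDeriv_zero] at this
    exact this.trans hε
  refine ⟨fun i j => ?_, fun a b => ?_, fun i a b => ?_⟩
  · have h1 := h0 (h.rp.rl.d₁.cs i j)
    rw [Real.norm_eq_abs] at h1
    have h2 : |(1 : Matrix (Fin n) (Fin n) ℝ) i j| ≤ 1 := by
      rw [Matrix.one_apply]
      split_ifs <;> simp
    have h3 := abs_add_le (d.s₁ x i j - (1 : Matrix (Fin n) (Fin n) ℝ) i j)
      ((1 : Matrix (Fin n) (Fin n) ℝ) i j)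
    rw [sub_add_cancel] at h3
    linarith
  · have h1 : ‖(d.P₂ x - 1) a b‖ ≤ 1 := h0 (h.rp.rl.d₂.cP a b)
    have h2 : ‖(1 : Matrix (Fin N) (Fin N) ℂ) a b‖ ≤ 1 := by
      rw [Matrix.one_apply]
      split_ifs <;> simp
    have h3 := norm_add_le ((d.P₂ x - 1) a b) ((1 : Matrix (Fin N) (Fin N) ℂ) a b)
    rw [Matrix.sub_apply, sub_add_cancel] at h3
    rw [Matrix.sub_apply] at h1
    linarith
  · have h1 := h0 (h.rp.rl.d₂.cG i a b)
    linarith

end Vale.Agent.P088.S4.H972
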