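import Vale.Agent.P088.R2.H455.S4.SpecB

/-!
# P088, stage 4, P5N: the two ingredients
-/

open MeasureTheory Set
open scoped ContDiff Matrix

noncomputable section

namespace Vale.Agent.P088.S4.H972

open Vale.Agent.P088.LR Vale.Agent.P088.LR.U Vale.Agent.P088.LR.H158
open Vale.Agent.P088.PJ
open Vale.Agent.P088.HY (VV)
open Vale.Agent.P088.HY.T3 (Eb e0 Ao Ac iv)

/-- Interior estimate for `(L_x + R_y) K = F` at the scale `1 / lam` (from `HY.rowINPG`). -/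
def IntN : Prop := ∀ n N : ℕ, ∃ (k : ℕ) (ε C : ℝ), 0 < ε ∧ 0 < C ∧ ∀ (d : PD n N) (G : Set (V n)),
  NrmN k ε d G → ∀ (z₀ : VV n) (lam : ℝ), 1 ≤ lam → ∀ K F : KC n N,
  SmK (Metric.ball z₀ (2 / lam)) K → SmK (Metric.ball z₀ (2 / lam)) F →
  (∀ z ∈ Metric.ball z₀ (2 / lam), LxK d K z + RyK d K z = F z) →
  IntegrableOn (fun z => nq (K z)) (Metric.ball z₀ (2 / lam)) → ∀ B : ℝ,
  (∀ a b, ∀ l ≤ k, ∀ z ∈ Metric.ball z₀ (2 / lam),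
    ‖iteratedFDeriv ℝ l (fun z => F z a b) z‖ ≤ B * lam ^ l) →
  ∀ a b, ∀ l ≤ 2, ‖iteratedFDeriv ℝ l (fun z => K z a b) z₀‖ ≤
    C * (lam ^ (n + l) * √(∫ z in Metric.ball z₀ (2 / lam), nq (K z)) + B * lam ^ l / lam ^ 2)

/-- The bound of the form by the far layer (twin of `HY.T3.s11`). -/
def S11N : Prop := ∀ n N : ℕ, ∃ (k : ℕ) (ε : ℝ), 0 < ε ∧ ∀ (d : PD n N) (G : Set (V n)),
  NrmN k ε d G → StpD (Eb 0 24) G d → ∀ (O : Set (V n)) (χ : V n → ℝ), IsOpen O →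
  O ⊆ Eb 0 24 → Ac n (991 / 1000) 20 ⊆ O → ContDiff ℝ ∞ χ →
  (∀ x ∉ Ac n (998 / 1000) 12, χ x = 0) → (∀ x ∈ Ao n (999 / 1000) 11, χ x = 1) →
  ∃ B : ℝ, 0 ≤ B ∧ ∀ (K : KC n N) (S : ℝ), 0 ≤ S → SmK (O ×ˢ O) K →
    (∀ z ∈ O ×ˢ O, LxK d K z = 0) → (∀ z ∈ O ×ˢ O, RyK d K z = 0) →
    (∀ x ∈ Ac n (991 / 1000) 20, ∀ y ∈ Ac n 10 20, ∀ a b,
      ‖K (x, y) a b‖ ≤ S ∧ ‖K (y, x) a b‖ ≤ S) →
    ‖∫ x, (χ x : ℂ) * dgD d K x‖ ≤ B * S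

end Vale.Agent.P088.S4.H972
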