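import Vale.Agent.P088.R2.H972.P5N.Mono
import Vale.Agent.P088.R2.H972.P5N.Spec
import Vale.Agent.P088.R2.H238.S3.Diag
import Vale.Agent.P088.R2.H901.Dic

/-!
# P088, stage 4, P5N: the derivatives on the diagonal, averaged with a variable scale
-/

open MeasureTheory Set
open scoped ContDiff Matrix ENNReal

noncomputable section

namespace Vale.Agent.P088.S4.H972

open Vale.Agent.P088.LR Vale.Agent.P088.LR.U Vale.Agent.P088.LR.H158
open Vale.Agent.P088.PJ
open Vale.Agent.P088.HY (VV)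
open Vale.Agent.P088.HY.T3 (Eb e0 Ao Ac iv)
open Vale.Agent.P088.HY.T4 (gx kk Oc Zq cg Lvl)
open Vale.Agent.P088.R2.H238.S3 (Slow fubv)
open Vale.Agent.P088.PJ.H901 (SmK_dxk SmK_dyk)

variable {n N : ℕ}

/-- The size of the derivatives on the diagonal which occur in the form. -/
def Xf (K : KC n N) (p : V n) : ℝ :=
  (∑ i, ∑ j, nq (dxk i (dyk j K) (p, p))) + ∑ i, nq (dxk i K (p, p))

theorem nq_nn' (A : Matrix (Fin N) (Fin N) ℂ) : 0 ≤ nq A := by unfold nq; positivity

theorem Xf_nn (K : KC n N) (p : V n) : 0 ≤ Xf K p :=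
  add_nonneg (Finset.sum_nonneg fun _ _ => Finset.sum_nonneg fun _ _ => nq_nn' _)
    (Finset.sum_nonneg fun _ _ => nq_nn' _)

theorem ent_le_nq (A : Matrix (Fin N) (Fin N) ℂ) (a b : Fin N) : ‖A a b‖ ^ 2 ≤ nq A := by
  have e1 : ‖A a b‖ ^ 2 ≤ ∑ b, ‖A a b‖ ^ 2 :=
    Finset.single_le_sum (f := fun b => ‖A a b‖ ^ 2) (fun j _ => by positivity)
      (Finset.mem_univ b)
  have e2 : ∑ b, ‖A a b‖ ^ 2 ≤ ∑ a, ∑ b, ‖A a b‖ ^ 2 :=
    Finset.single_le_sum (f := fun a => ∑ b, ‖A a b‖ ^ 2) (fun i _ => by positivity)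
      (Finset.mem_univ a)
  exact e1.trans e2

theorem nq_le_of {A : Matrix (Fin N) (Fin N) ℂ} {E : ℝ} (h : ∀ a b, ‖A a b‖ ≤ E) :
    nq A ≤ N * (N * E ^ 2) := by
  unfold nq
  calc _ ≤ ∑ _a : Fin N, ∑ _b : Fin N, E ^ 2 :=
        Finset.sum_le_sum fun a _ => Finset.sum_le_sum fun b _ =>
          pow_le_pow_left₀ (norm_nonneg _) (h a b) 2
    _ = _ := by simp only [Finset.sum_const, Finset.card_univ, Fintype.card_fin, nsmul_eq_mul]

theorem Xf_dxy (K : KC n N) (p : V n) (i j : Fin n) (a b : Fin N) :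
    ‖dxk i (dyk j K) (p, p) a b‖ ≤ √(Xf K p) := by
  refine Real.le_sqrt_of_sq_le ((ent_le_nq _ a b).trans ?_)
  have e1 : nq (dxk i (dyk j K) (p, p)) ≤ ∑ j, nq (dxk i (dyk j K) (p, p)) :=
    Finset.single_le_sum (f := fun j => nq (dxk i (dyk j K) (p, p))) (fun j _ => nq_nn' _)
      (Finset.mem_univ j)
  have e2 : ∑ j, nq (dxk i (dyk j K) (p, p)) ≤ ∑ i, ∑ j, nq (dxk i (dyk j K) (p, p)) :=
    Finset.single_le_sum (f := fun i => ∑ j, nq (dxk i (dyk j K) (p, p)))
      (fun i _ => Finset.sum_nonneg fun j _ => nq_nn' _) (Finset.mem_univ i)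
  have e3 : 0 ≤ ∑ i, nq (dxk i K (p, p)) := Finset.sum_nonneg fun _ _ => nq_nn' _
  unfold Xf; linarith

theorem Xf_dx (K : KC n N) (p : V n) (i : Fin n) (a b : Fin N) :
    ‖dxk i K (p, p) a b‖ ≤ √(Xf K p) := by
  refine Real.le_sqrt_of_sq_le ((ent_le_nq _ a b).trans ?_)
  have e2 : nq (dxk i K (p, p)) ≤ ∑ i, nq (dxk i K (p, p)) :=
    Finset.single_le_sum (f := fun i => nq (dxk i K (p, p)))
      (fun i _ => nq_nn' _) (Finset.mem_univ i)
  have e3 : 0 ≤ ∑ i, ∑ j, nq (dxk i (dyk j K) (p, p)) :=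
    Finset.sum_nonneg fun _ _ => Finset.sum_nonneg fun _ _ => nq_nn' _
  unfold Xf; linarith

/-- The constant of `Xf_le`. -/
def cX (n N : ℕ) : ℝ := n * (n * (N * N)) + n * (N * N)

theorem cX_nn (n N : ℕ) : 0 ≤ cX n N := by unfold cX; positivity

theorem Xf_le {K : KC n N} {p : V n} {E : ℝ}
    (h2 : ∀ i j a b, ‖dxk i (dyk j K) (p, p) a b‖ ≤ E)
    (h1 : ∀ i a b, ‖dxk i K (p, p) a b‖ ≤ E) : Xf K p ≤ cX n N * E ^ 2 := by
  unfold Xf cX
  have e1 : ∑ i, ∑ j, nq (dxk i (dyk j K) (p, p)) ≤ n * (n * (N * (N * E ^ 2))) := by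
    calc _ ≤ ∑ _i : Fin n, ∑ _j : Fin n, (N : ℝ) * (N * E ^ 2) :=
          Finset.sum_le_sum fun i _ => Finset.sum_le_sum fun j _ => nq_le_of (h2 i j)
      _ = _ := by simp only [Finset.sum_const, Finset.card_univ, Fintype.card_fin, nsmul_eq_mul]
  have e2 : ∑ i, nq (dxk i K (p, p)) ≤ n * (N * (N * E ^ 2)) := by
    calc _ ≤ ∑ _i : Fin n, (N : ℝ) * (N * E ^ 2) :=
          Finset.sum_le_sum fun i _ => nq_le_of (h1 i)
      _ = _ := by simp only [Finset.sum_const, Finset.card_univ, Fintype.card_fin, nsmul_eq_mul]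
  calc _ ≤ n * (n * (N * (N * E ^ 2))) + n * (N * (N * E ^ 2)) := add_le_add e1 e2
    _ = _ := by ring

theorem nx_single (i : Fin n) : ‖((Pi.single i 1, 0) : VV n)‖ ≤ 1 := by
  rw [Prod.norm_def]
  simp only [norm_zero]
  refine max_le ?_ zero_le_one
  rw [pi_norm_le_iff_of_nonneg zero_le_one]
  intro j
  by_cases h : j = i
  · subst h; simp
  · simp [Pi.single_eq_of_ne h]

theorem ny_single (i : Fin n) : ‖((0, Pi.single i 1) : VV n)‖ ≤ 1 := by
  rw [Prod.norm_def]
  simp only [norm_zero]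
  refine max_le zero_le_one ?_
  rw [pi_norm_le_iff_of_nonneg zero_le_one]
  intro j
  by_cases h : j = i
  · subst h; simp
  · simp [Pi.single_eq_of_ne h]

theorem dxk_le {K : KC n N} {z : VV n} (i : Fin n) (a b : Fin N) :
    ‖dxk i K z a b‖ ≤ ‖iteratedFDeriv ℝ 1 (fun z => K z a b) z‖ := by
  show ‖fderiv ℝ (fun z => K z a b) z (Pi.single i 1, 0)‖ ≤ _
  refine (ContinuousLinearMap.le_opNorm _ _).trans ?_
  rw [norm_iteratedFDeriv_one]
  exact mul_le_of_le_one_right (norm_nonneg _) (nx_single i)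

theorem dxyk_le {U : Set (VV n)} (hU : IsOpen U) {K : KC n N} (hK : SmK U K) {z : VV n}
    (hz : z ∈ U) (i j : Fin n) (a b : Fin N) :
    ‖dxk i (dyk j K) z a b‖ ≤ ‖iteratedFDeriv ℝ 2 (fun z => K z a b) z‖ := by
  have h1 : DifferentiableAt ℝ (fderiv ℝ fun z => K z a b) z :=
    (((hK a b).fderiv_of_isOpen hU (m := ∞) (by simp)).contDiffAt
      (hU.mem_nhds hz)).differentiableAt (by simp)
  have e : dxk i (dyk j K) z a b =
      fderiv ℝ (fderiv ℝ fun z => K z a b) z (Pi.single i 1, 0) (0, Pi.single j 1) := by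
    show fderiv ℝ (fun z => fderiv ℝ (fun z => K z a b) z (0, Pi.single j 1)) z
      (Pi.single i 1, 0) = _
    have h2 : HasFDerivAt (fun z => fderiv ℝ (fun z => K z a b) z (0, Pi.single j 1))
        ((ContinuousLinearMap.apply ℝ ℂ ((0, Pi.single j 1) : VV n)).comp
          (fderiv ℝ (fderiv ℝ fun z => K z a b) z)) z :=
      (ContinuousLinearMap.apply ℝ ℂ ((0, Pi.single j 1) : VV n)).hasFDerivAt.comp z
        h1.hasFDerivAt
    rw [h2.fderiv]
    rfl
  rw [e]
  have h3 := ContinuousMultilinearMap.le_opNorm (iteratedFDeriv ℝ 2 (fun z => K z a b) z)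
    ![((Pi.single i 1, 0) : VV n), ((0, Pi.single j 1) : VV n)]
  rw [iteratedFDeriv_two_apply] at h3
  simp only [Fin.prod_univ_two, Matrix.cons_val_zero, Matrix.cons_val_one] at h3
  refine h3.trans ?_
  have h4 : ‖((Pi.single i 1, 0) : VV n)‖ * ‖((0, Pi.single j 1) : VV n)‖ ≤ 1 * 1 :=
    mul_le_mul (nx_single i) (ny_single j) (norm_nonneg _) zero_le_one
  rw [one_mul] at h4
  exact mul_le_of_le_one_right (norm_nonneg _) h4

theorem Xf_cont {U : Set (VV n)} (hU : IsOpen U) {K : KC n N} (hK : SmK U K) {B : Set (V n)}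
    (hB : ∀ p ∈ B, (p, p) ∈ U) : ContinuousOn (fun p => Xf K p) B := by
  have key : ∀ {L : KC n N}, SmK U L → ContinuousOn (fun p : V n => nq (L (p, p))) B := by
    intro L hL
    unfold nq
    refine continuousOn_finsetSum _ fun a _ => continuousOn_finsetSum _ fun b _ => ?_
    refine ContinuousOn.pow (ContinuousOn.norm ?_) 2
    exact (hL a b).continuousOn.comp (by fun_prop) fun p hp => hB p hp
  unfold Xf
  refine ContinuousOn.add ?_ ?_
  · exact continuousOn_finsetSum _ fun i _ => continuousOn_finsetSum _ fun j _ =>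
      key (SmK_dxk hU (SmK_dyk hU hK j) i)
  · exact continuousOn_finsetSum _ fun i _ => key (SmK_dxk hU hK i)

/-- **The derivatives on the diagonal.** -/
theorem diagN (hI : IntN) (n N : ℕ) : ∃ (k : ℕ) (C ε : ℝ), 0 < C ∧ 0 < ε ∧
    ∀ (d : PD n N) (G : Set (V n)), NrmN k ε d G →
    ∀ (B : Set (V n)) (U : Set (VV n)) (lam om M : V n → ℝ) (K F : KC n N) (g : VV n → ℝ),
    MeasurableSet B → IsOpen U → Measurable lam → (∀ p ∈ B, 1 ≤ lam p) → Slow B lam →
    (∀ p ∈ B, Metric.ball (p, p) (2 / lam p) ⊆ U) → SmK U K → SmK U F →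
    (∀ z ∈ U, LxK d K z + RyK d K z = F z) → (∀ p ∈ B, 0 ≤ M p) →
    (∀ p ∈ B, ∀ a b, ∀ l ≤ k, ∀ z ∈ Metric.ball (p, p) (2 / lam p),
      ‖iteratedFDeriv ℝ l (fun z => F z a b) z‖ ≤ M p * lam p ^ l) →
    Measurable om → (∀ p ∈ B, 0 ≤ om p) → IntegrableOn g U → (∀ z ∈ U, 0 ≤ g z) →
    (∀ p ∈ B, ∀ z ∈ Metric.ball (p, p) (2 / lam p),
      om p * lam p ^ (n + 4) * nq (K z) ≤ g z) →
    IntegrableOn (fun p => om p * M p ^ 2) B →
    IntegrableOn (fun p => om p * Xf K p) B ∧
      ∫ p in B, om p * Xf K p ≤ C * ((∫ z in U, g z) + ∫ p in B, om p * M p ^ 2) := by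
  obtain ⟨k, ε, C, hε, hC, h⟩ := hI n N
  refine ⟨k, (2 * (cX n N + 1) * C ^ 2) * 16 ^ n, ε, by have := cX_nn n N; positivity, hε, ?_⟩
  intro d G hN B U lam om M K F g hB hU hlm hl1 hsl hsub hk hF he hM0 hM hom hom0 hg hg0
    hgk hMi
  obtain ⟨f1, f2⟩ := fubv hB hU hlm hl1 hsl hsub hg hg0
  have hUm := hU.measurableSet
  have hcX := cX_nn n N
  have hnqm : ∀ {S : Set (VV n)}, IsOpen S → S ⊆ U →
      AEStronglyMeasurable (fun z => nq (K z)) (volume.restrict S) := by
    intro S hS hSU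
    refine ContinuousOn.aestronglyMeasurable ?_ hS.measurableSet
    unfold nq
    refine continuousOn_finsetSum _ fun a _ => continuousOn_finsetSum _ fun b _ => ?_
    exact ContinuousOn.pow (ContinuousOn.norm ((hk a b).continuousOn.mono hSU)) 2
  have hmonoK : ∀ {L : KC n N} {S : Set (VV n)}, S ⊆ U → SmK U L → SmK S L := fun hS hL a b =>
    (hL a b).mono hS
  -- the pointwise bound
  have hpt : ∀ p ∈ B, om p * Xf K p ≤ (2 * (cX n N + 1) * C ^ 2) *
      (lam p ^ n * (∫ z in Metric.ball (p, p) (2 / lam p), g z) + om p * M p ^ 2) := by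
    intro p hp
    have hl : 0 < lam p := by linarith [hl1 p hp]
    have hb := hsub p hp
    have hgb : IntegrableOn g (Metric.ball (p, p) (2 / lam p)) := hg.mono_set hb
    have hlp : 0 < lam p ^ (n + 4) := pow_pos hl _
    rcases (hom0 p hp).lt_or_eq with ho | ho
    · have hki : IntegrableOn (fun z => nq (K z)) (Metric.ball (p, p) (2 / lam p)) := by
        refine Integrable.mono' (hgb.const_mul (om p * lam p ^ (n + 4))⁻¹)
          (hnqm Metric.isOpen_ball hb) ?_
        refine (ae_restrict_iff' Metric.isOpen_ball.measurableSet).2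
          (Filter.Eventually.of_forall fun z hz => ?_)
        rw [Real.norm_of_nonneg (nq_nn' _), ← div_eq_inv_mul, le_div_iff₀ (by positivity)]
        have := hgk p hp z hz
        linarith
      have hc := h d G hN (p, p) (lam p) (hl1 p hp) K F (hmonoK hb hk) (hmonoK hb hF)
        (fun z hz => he z (hb hz)) hki (M p) (hM p hp)
      obtain ⟨I, hI⟩ : ∃ I : ℝ, I = ∫ z in Metric.ball (p, p) (2 / lam p), nq (K z) := ⟨_, rfl⟩
      have hI0 : 0 ≤ I := by rw [hI]; exact integral_nonneg fun z => nq_nn' _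
      have hI2 : om p * lam p ^ (n + 4) * I ≤ ∫ z in Metric.ball (p, p) (2 / lam p), g z := by
        rw [hI, ← integral_const_mul]
        exact setIntegral_mono_on (hki.const_mul _) hgb Metric.isOpen_ball.measurableSet
          (hgk p hp)
      rw [← hI] at hc
      have hpU : (p, p) ∈ U := hb (Metric.mem_ball_self (by positivity))
      have hMp := hM0 p hp
      obtain ⟨E, hE⟩ : ∃ E : ℝ, E = C * (lam p ^ (n + 2) * √I + M p) := ⟨_, rfl⟩
      have b2 : ∀ i j a b, ‖dxk i (dyk j K) (p, p) a b‖ ≤ E := by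
        intro i j a b
        refine (dxyk_le hU hk hpU i j a b).trans ((hc a b 2 le_rfl).trans (le_of_eq ?_))
        rw [hE]
        have : M p * lam p ^ 2 / lam p ^ 2 = M p := by field_simp
        rw [this]
      have b1 : ∀ i a b, ‖dxk i K (p, p) a b‖ ≤ E := by
        intro i a b
        refine (dxk_le i a b).trans ((hc a b 1 (by norm_num)).trans ?_)
        rw [hE]
        refine mul_le_mul_of_nonneg_left (add_le_add ?_ ?_) hC.le
        · refine mul_le_mul_of_nonneg_right ?_ (Real.sqrt_nonneg _)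
          exact pow_le_pow_right₀ (hl1 p hp) (by omega)
        · rw [pow_one, div_le_iff₀ (by positivity)]
          have : lam p ≤ lam p ^ 2 := by nlinarith [hl1 p hp]
          exact mul_le_mul_of_nonneg_left this hMp
      have hX := Xf_le b2 b1
      have e1 : E ^ 2 ≤ 2 * C ^ 2 * (lam p ^ n * (lam p ^ (n + 4) * I) + M p ^ 2) := by
        have e2 : (lam p ^ (n + 2) * √I) ^ 2 = lam p ^ n * (lam p ^ (n + 4) * I) := by
          rw [mul_pow, Real.sq_sqrt hI0, ← pow_mul, ← mul_assoc, ← pow_add]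
          congr 2
          ring
        have e3 : (lam p ^ (n + 2) * √I + M p) ^ 2 ≤
            2 * (lam p ^ (n + 2) * √I) ^ 2 + 2 * M p ^ 2 := by
          nlinarith [sq_nonneg (lam p ^ (n + 2) * √I - M p)]
        rw [hE, mul_pow]
        rw [e2] at e3
        have := mul_le_mul_of_nonneg_left e3 (sq_nonneg C)
        linarith
      have e0 : Xf K p ≤ (2 * (cX n N + 1) * C ^ 2) *
          (lam p ^ n * (lam p ^ (n + 4) * I) + M p ^ 2) := by
        have a1 : cX n N * E ^ 2 ≤ (cX n N + 1) * E ^ 2 := by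
          have := sq_nonneg E
          nlinarith
        have a2 := mul_le_mul_of_nonneg_left e1 (by linarith : 0 ≤ cX n N + 1)
        calc Xf K p ≤ (cX n N + 1) * E ^ 2 := hX.trans a1
          _ ≤ _ := a2
          _ = _ := by ring
      have e4 := mul_le_mul_of_nonneg_left e0 ho.le
      have e5 : om p * ((2 * (cX n N + 1) * C ^ 2) *
          (lam p ^ n * (lam p ^ (n + 4) * I) + M p ^ 2)) =
          (2 * (cX n N + 1) * C ^ 2) *
            (lam p ^ n * (om p * lam p ^ (n + 4) * I) + om p * M p ^ 2) := by ring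
      rw [e5] at e4
      refine e4.trans ?_
      have e6 := mul_le_mul_of_nonneg_left hI2 (pow_nonneg hl.le n)
      have e7 : lam p ^ n * (om p * lam p ^ (n + 4) * I) + om p * M p ^ 2 ≤
        lam p ^ n * (∫ z in Metric.ball (p, p) (2 / lam p), g z) + om p * M p ^ 2 := by linarith
      exact mul_le_mul_of_nonneg_left e7 (by positivity)
    · rw [← ho]
      simp only [zero_mul, add_zero]
      have : 0 ≤ ∫ z in Metric.ball (p, p) (2 / lam p), g z :=
        setIntegral_nonneg Metric.isOpen_ball.measurableSet fun z hz => hg0 z (hb hz)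
      positivity
  have hdom : IntegrableOn (fun p => (2 * (cX n N + 1) * C ^ 2) *
      (lam p ^ n * (∫ z in Metric.ball (p, p) (2 / lam p), g z) + om p * M p ^ 2)) B :=
    (f1.add hMi).const_mul _
  have hmeas : AEStronglyMeasurable (fun p => om p * Xf K p) (volume.restrict B) := by
    refine hom.aestronglyMeasurable.mul ?_
    exact (Xf_cont hU hk fun p hp => hsub p hp (Metric.mem_ball_self (by
        have : 0 < lam p := by linarith [hl1 p hp]
        positivity))).aestronglyMeasurable hB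
  have hint : IntegrableOn (fun p => om p * Xf K p) B := by
    refine Integrable.mono' hdom hmeas ((ae_restrict_iff' hB).2
      (Filter.Eventually.of_forall fun p hp => ?_))
    rw [Real.norm_of_nonneg (mul_nonneg (hom0 p hp) (Xf_nn _ _))]
    exact hpt p hp
  refine ⟨hint, ?_⟩
  refine (setIntegral_mono_on hint hdom hB hpt).trans ?_
  rw [integral_const_mul, integral_add f1 hMi]
  have hgi : 0 ≤ ∫ z in U, g z := setIntegral_nonneg hUm hg0
  have hMi0 : 0 ≤ ∫ p in B, om p * M p ^ 2 :=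
    setIntegral_nonneg hB fun p hp => mul_nonneg (hom0 p hp) (sq_nonneg _)
  have h16 : (1 : ℝ) ≤ 16 ^ n := one_le_pow₀ (by norm_num)
  have e1 : (∫ p in B, lam p ^ n * ∫ z in Metric.ball (p, p) (2 / lam p), g z) +
      (∫ p in B, om p * M p ^ 2) ≤ 16 ^ n * ((∫ z in U, g z) + ∫ p in B, om p * M p ^ 2) := by
    nlinarith
  calc (2 * (cX n N + 1) * C ^ 2) *
        ((∫ p in B, lam p ^ n * ∫ z in Metric.ball (p, p) (2 / lam p), g z) +
      ∫ p in B, om p * M p ^ 2)
      ≤ (2 * (cX n N + 1) * C ^ 2) * (16 ^ n * ((∫ z in U, g z) + ∫ p in B, om p * M p ^ 2)) :=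
        mul_le_mul_of_nonneg_left e1 (by positivity)
    _ = _ := by ring

end Vale.Agent.P088.S4.H972
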