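import Vale.Agent.P088.R2.H972.P5N.Ker
import Vale.Agent.P088.R2.H404.P5e

/-!
# P088, stage 4, P5N: the far values, the splitting of the pairing, numbers
-/

open MeasureTheory Set Filter Topology
open scoped ContDiff Matrix

noncomputable section

namespace Vale.Agent.P088.S4.H972

open Vale.Agent.P088.LR Vale.Agent.P088.LR.U Vale.Agent.P088.LR.H158
open Vale.Agent.P088.PJ
open Vale.Agent.P088.HY (VV)
open Vale.Agent.P088.HY.T3 (Eb e0 Ao Ac iv mem_Eb0 isCompact_Ac rt_ball)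
open Vale.Agent.P088.HY.T4 (gx kk Oc Zq cg Lvl ball_Oc isOpen_OO isOpen_Oc Ac_sub_Oc
  vol_ball_prod num_T1)
open Vale.Agent.P088.PJ.H359 (smk_Lk smk_Rk Lk_add)

variable {n N : ℕ}

/-- The interior estimate for the data `d`. -/
def IntC (d : PD n N) (k : ℕ) (C : ℝ) : Prop := ∀ (z₀ : VV n) (lam : ℝ), 1 ≤ lam → ∀ K F : KC n N,
  SmK (Metric.ball z₀ (2 / lam)) K → SmK (Metric.ball z₀ (2 / lam)) F →
  (∀ z ∈ Metric.ball z₀ (2 / lam), LxK d K z + RyK d K z = F z) →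
  IntegrableOn (fun z => nq (K z)) (Metric.ball z₀ (2 / lam)) → ∀ B : ℝ,
  (∀ a b, ∀ l ≤ k, ∀ z ∈ Metric.ball z₀ (2 / lam),
    ‖iteratedFDeriv ℝ l (fun z => F z a b) z‖ ≤ B * lam ^ l) →
  ∀ a b, ∀ l ≤ 2, ‖iteratedFDeriv ℝ l (fun z => K z a b) z₀‖ ≤
    C * (lam ^ (n + l) * √(∫ z in Metric.ball z₀ (2 / lam), nq (K z)) + B * lam ^ l / lam ^ 2)

theorem nq_add_le (A B : Matrix (Fin N) (Fin N) ℂ) : nq (A + B) ≤ 2 * nq A + 2 * nq B := by
  unfold nq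
  rw [Finset.mul_sum, Finset.mul_sum, ← Finset.sum_add_distrib]
  refine Finset.sum_le_sum fun a _ => ?_
  rw [Finset.mul_sum, Finset.mul_sum, ← Finset.sum_add_distrib]
  refine Finset.sum_le_sum fun b _ => ?_
  rw [Matrix.add_apply]
  have h1 := norm_add_le (A a b) (B a b)
  have h2 : ‖A a b + B a b‖ ^ 2 ≤ (‖A a b‖ + ‖B a b‖) ^ 2 :=
    pow_le_pow_left₀ (norm_nonneg _) h1 2
  nlinarith [sq_nonneg (‖A a b‖ - ‖B a b‖)]

theorem nq_contOn {O : Set (VV n)} {K : KC n N} (hK : SmK O K) :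
    ContinuousOn (fun z => nq (K z)) O := by
  unfold nq
  exact continuousOn_finsetSum _ fun a _ => continuousOn_finsetSum _ fun b _ =>
    ((hK a b).continuousOn.norm).pow 2

theorem far_coreN {d : PD n N} {k : ℕ} {Ci : ℝ} (hi : IntC d k Ci) (hCi : 0 ≤ Ci) {lam : ℝ}
    (hlam : 4 ≤ lam) {E0 w₀ M2 : ℝ} (hN1 : 1 ≤ N) {K0 K1 : KC n N} {W : VV n → ℝ}
    (hK0 : SmK univ K0) (hK1 : SmK (Oc n ×ˢ Oc n) K1)
    (hL1 : ∀ z ∈ Oc n ×ˢ Oc n, LxK d K1 z = -LxK d K0 z)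
    (hL2 : ∀ z ∈ Oc n ×ˢ Oc n, RyK d K1 z = -RyK d K0 z)
    (hint : IntegrableOn (fun z => Real.exp (-(2 * W z)) * nq (K1 z)) (Oc n ×ˢ Oc n))
    (hM2 : ∫ z in Oc n ×ˢ Oc n, Real.exp (-(2 * W z)) * nq (K1 z) ≤ M2) {z₀ : VV n}
    (hAB : Metric.ball z₀ (2 / lam) ⊆ Oc n ×ˢ Oc n)
    (hW : ∀ z ∈ Metric.ball z₀ (2 / lam), W z ≤ w₀)
    (hE : ∀ z ∈ Metric.ball z₀ (2 / lam), ∀ a b, ‖K0 z a b‖ ≤ E0) (a b : Fin N) :
    ‖(K0 z₀ + K1 z₀) a b‖ ≤ Ci * lam ^ n * N * √(2 * (E0 ^ 2 + Real.exp (2 * w₀) * M2)) := by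
  obtain ⟨S, hS⟩ : ∃ S, S = Metric.ball z₀ (2 / lam) := ⟨_, rfl⟩
  have hl0 : 0 < lam := by linarith
  have hz₀ : z₀ ∈ S := by rw [hS]; exact Metric.mem_ball_self (by positivity)
  rw [← hS] at hAB hW hE
  have hSo : IsOpen S := by rw [hS]; exact Metric.isOpen_ball
  have hm : MeasurableSet S := hSo.measurableSet
  have hN0 : (1 : ℝ) ≤ N := by exact_mod_cast hN1
  have hK0' : SmK (Oc n ×ˢ Oc n) K0 := fun a b => (hK0 a b).mono (subset_univ _)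
  have hK : SmK (Oc n ×ˢ Oc n) fun z => K0 z + K1 z := PJ.H359.smk_add hK0' hK1
  have hKS : SmK S fun z => K0 z + K1 z := fun a b => (hK a b).mono hAB
  have hE0 : 0 ≤ E0 := (norm_nonneg _).trans (hE z₀ hz₀ a b)
  have hvol : volume S ≤ 1 := by
    rw [hS]
    have : Metric.ball z₀ (2 / lam) = Metric.ball z₀.1 (2 / lam) ×ˢ Metric.ball z₀.2 (2 / lam) :=
      (ball_prod_same _ _ _).symm
    rw [this]
    refine vol_ball_prod (by positivity) ?_ _ _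
    rw [div_le_div_iff₀ hl0 (by norm_num)]
    linarith
  have hvr : volume.real S ≤ 1 := by
    rw [Measure.real]
    exact ENNReal.toReal_le_of_le_ofReal zero_le_one (by rw [ENNReal.ofReal_one]; exact hvol)
  have hfin : IsFiniteMeasure (volume.restrict S) :=
    ⟨by rw [Measure.restrict_apply_univ]; exact hvol.trans_lt ENNReal.one_lt_top⟩
  have hi1 : IntegrableOn (fun z => Real.exp (-(2 * W z)) * nq (K1 z)) S := hint.mono_set hAB
  have hpt : ∀ z ∈ S, nq (K0 z + K1 z) ≤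
      2 * (N * (N * E0 ^ 2)) +
        2 * (Real.exp (2 * w₀) * (Real.exp (-(2 * W z)) * nq (K1 z))) := by
    intro z hz
    have e1 := hW z hz
    have e2 : 1 ≤ Real.exp (2 * w₀) * Real.exp (-(2 * W z)) := by
      rw [← Real.exp_add]; exact Real.one_le_exp (by linarith)
    have e3 : nq (K0 z) ≤ N * (N * E0 ^ 2) := nq_le_of (hE z hz)
    have e4 : nq (K1 z) ≤ Real.exp (2 * w₀) * (Real.exp (-(2 * W z)) * nq (K1 z)) := by
      have := mul_le_mul_of_nonneg_right e2 (nq_nn' (K1 z))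
      linarith
    have e5 := nq_add_le (K0 z) (K1 z)
    linarith
  have hgi : IntegrableOn (fun z => 2 * (N * (N * E0 ^ 2)) +
      2 * (Real.exp (2 * w₀) * (Real.exp (-(2 * W z)) * nq (K1 z)))) S :=
    (integrable_const _).add ((hi1.const_mul _).const_mul _)
  have hK2 : IntegrableOn (fun z => nq (K0 z + K1 z)) S := by
    refine Integrable.mono' hgi ((nq_contOn hKS).aestronglyMeasurable hm)
      ((ae_restrict_iff' hm).2 (Eventually.of_forall fun z hz => ?_))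
    rw [Real.norm_of_nonneg (nq_nn' _)]
    exact hpt z hz
  have hM20 : 0 ≤ M2 := le_trans (integral_nonneg fun z =>
    mul_nonneg (Real.exp_pos _).le (nq_nn' _)) hM2
  have h0 : 0 ≤ 2 * (E0 ^ 2 + Real.exp (2 * w₀) * M2) := by positivity
  have hz0 : SmK S fun _ : VV n => (0 : Matrix (Fin N) (Fin N) ℂ) := fun a b => contDiffOn_const
  have key := hi z₀ lam (by linarith) (fun z => K0 z + K1 z) (fun _ => 0)
    (by rw [← hS]; exact hKS) (by rw [← hS]; exact hz0) (by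
      intro z hz
      rw [← hS] at hz
      have e1 := Lk_add (s := d.s₁) (β := d.β) isOpen_OO hK0' hK1 z (hAB hz)
      have e2 := Rk_add (s := d.s₂) (β := b2 d) isOpen_OO hK0' hK1 z (hAB hz)
      have e3 : Lk d.s₁ d.β K1 z = -Lk d.s₁ d.β K0 z := hL1 z (hAB hz)
      have e4 : Rk d.s₂ (b2 d) K1 z = -Rk d.s₂ (b2 d) K0 z := hL2 z (hAB hz)
      show Lk d.s₁ d.β (fun z => K0 z + K1 z) z + Rk d.s₂ (b2 d) (fun z => K0 z + K1 z) z = 0
      rw [e1, e2, e3, e4]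
      abel) (by rw [← hS]; exact hK2) 0 (fun a b l _ z _ => by
      have : (fun z : VV n => (0 : Matrix (Fin N) (Fin N) ℂ) a b) = fun _ => (0 : ℂ) := by
        funext z; rfl
      rw [this]
      have h0 := congrFun (iteratedFDeriv_fun_zero (𝕜 := ℝ) (n := l) (E := VV n) (F := ℂ)) z
      rw [h0]
      simp) a b 0 (by norm_num)
  rw [norm_iteratedFDeriv_zero, ← hS] at key
  have hI : ∫ z in S, nq (K0 z + K1 z) ≤ (N * √(2 * (E0 ^ 2 + Real.exp (2 * w₀) * M2))) ^ 2 := by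
    rw [mul_pow, Real.sq_sqrt h0]
    calc ∫ z in S, nq (K0 z + K1 z)
        ≤ ∫ z in S, (2 * (N * (N * E0 ^ 2)) +
          2 * (Real.exp (2 * w₀) * (Real.exp (-(2 * W z)) * nq (K1 z)))) :=
          setIntegral_mono_on hK2 hgi hm hpt
      _ = volume.real S * (2 * (N * (N * E0 ^ 2))) + 2 * (Real.exp (2 * w₀) *
          ∫ z in S, Real.exp (-(2 * W z)) * nq (K1 z)) := by
          rw [integral_add (integrable_const _) ((hi1.const_mul _).const_mul _)]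
          have e1 : ∫ z in S, 2 * (Real.exp (2 * w₀) * (Real.exp (-(2 * W z)) * nq (K1 z))) =
            2 * (Real.exp (2 * w₀) * ∫ z in S, Real.exp (-(2 * W z)) * nq (K1 z)) := by
            rw [integral_const_mul, integral_const_mul]
          rw [e1, setIntegral_const, smul_eq_mul]
      _ ≤ 1 * (2 * (N * (N * E0 ^ 2))) + 2 * (Real.exp (2 * w₀) * M2) := by
          refine add_le_add (mul_le_mul_of_nonneg_right hvr (by positivity)) ?_
          refine mul_le_mul_of_nonneg_left (mul_le_mul_of_nonneg_left ?_ (Real.exp_pos _).le)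
            (by norm_num)
          refine le_trans ?_ hM2
          exact setIntegral_mono_set hint (Eventually.of_forall fun z =>
            mul_nonneg (Real.exp_pos _).le (nq_nn' _)) hAB.eventuallyLE
      _ ≤ _ := by
          have e1 : 0 ≤ Real.exp (2 * w₀) * M2 := by positivity
          have e2 : (1 : ℝ) ≤ N ^ 2 := one_le_pow₀ hN0
          nlinarith
  have hI2 : √(∫ z in S, nq (K0 z + K1 z)) ≤
      N * √(2 * (E0 ^ 2 + Real.exp (2 * w₀) * M2)) := by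
    rw [Real.sqrt_le_left (by positivity)]
    exact hI
  have e6 : Ci * (lam ^ (n + 0) * √(∫ z in S, nq (K0 z + K1 z)) + 0 * lam ^ 0 / lam ^ 2) =
      Ci * lam ^ n * √(∫ z in S, nq (K0 z + K1 z)) := by
    rw [add_zero]; ring
  rw [e6] at key
  refine key.trans ?_
  have e7 : 0 ≤ Ci * lam ^ n := by positivity
  have e8 := mul_le_mul_of_nonneg_left hI2 e7
  refine e8.trans (le_of_eq ?_)
  ring

/-- the far values -/
theorem far_allN {d : PD n N} {k : ℕ} {Ci : ℝ} (hi : IntC d k Ci) (hCi : 0 ≤ Ci) {lam θ : ℝ}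
    (hθ : 0 < θ) (hθ1 : θ ≤ 1 / 100)
    (hlam : 4 ≤ lam) (hlθ : (n + 1) * (2 / lam) ≤ θ / 10) {E0 c R M2 : ℝ} (hN1 : 1 ≤ N)
    {K0 K1 : KC n N} {W : VV n → ℝ}
    (hK0 : SmK univ K0) (hK1 : SmK (Oc n ×ˢ Oc n) K1)
    (hL1 : ∀ z ∈ Oc n ×ˢ Oc n, LxK d K1 z = -LxK d K0 z)
    (hL2 : ∀ z ∈ Oc n ×ˢ Oc n, RyK d K1 z = -RyK d K0 z)
    (hint : IntegrableOn (fun z => Real.exp (-(2 * W z)) * nq (K1 z)) (Oc n ×ˢ Oc n))
    (hM2 : ∫ z in Oc n ×ˢ Oc n, Real.exp (-(2 * W z)) * nq (K1 z) ≤ M2)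
    (hW : ∀ x ∈ Ac n (1 - θ) 21, ∀ y ∈ Ac n (99 / 10) 21, W (x, y) ≤ -(c * R) ∧
      W (y, x) ≤ -(c * R))
    (hE : ∀ x ∈ Oc n, ∀ y ∈ Oc n, (x ∈ Ac n 9 24 ∨ y ∈ Ac n 9 24) → ∀ a b,
      ‖K0 (x, y) a b‖ ≤ E0)
    {x y : V n} (hx : x ∈ Ac n (1 - 9 / 10 * θ) 20) (hy : y ∈ Ac n 10 20) (a b : Fin N) :
    ‖(K0 (x, y) + K1 (x, y)) a b‖ ≤
      Ci * lam ^ n * N * √(2 * (E0 ^ 2 + Real.exp (2 * -(c * R)) * M2)) ∧
    ‖(K0 (y, x) + K1 (y, x)) a b‖ ≤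
      Ci * lam ^ n * N * √(2 * (E0 ^ 2 + Real.exp (2 * -(c * R)) * M2)) := by
  have hn : (0 : ℝ) ≤ n := Nat.cast_nonneg n
  have hl0 : 0 < lam := by linarith
  obtain ⟨r, hr⟩ : ∃ r, r = 2 / lam := ⟨_, rfl⟩
  have hr0 : 0 < r := by rw [hr]; positivity
  rw [← hr] at hlθ
  have hbx : Metric.ball x r ⊆ Oc n := ball_Oc hr0.le (by linarith) (by linarith) hx
  have hby : Metric.ball y r ⊆ Oc n := ball_Oc hr0.le (by linarith) (by linarith) hy
  have hbx' : ∀ z ∈ Metric.ball x r, z ∈ Ac n (1 - θ) 21 := by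
    intro z hz
    obtain ⟨h1, h2⟩ := rt_ball hr0.le hz
    exact ⟨by linarith [hx.1], by linarith [hx.2]⟩
  have hby' : ∀ z ∈ Metric.ball y r, z ∈ Ac n (99 / 10) 21 := by
    intro z hz
    obtain ⟨h1, h2⟩ := rt_ball hr0.le hz
    exact ⟨by linarith [hy.1], by linarith [hy.2]⟩
  have hby'' : ∀ z ∈ Metric.ball y r, z ∈ Ac n 9 24 := by
    intro z hz
    have := hby' z hz
    exact ⟨by linarith [this.1], by linarith [this.2]⟩
  have hsp : ∀ {p q : V n} {z : VV n}, z ∈ Metric.ball (p, q) r →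
      z.1 ∈ Metric.ball p r ∧ z.2 ∈ Metric.ball q r := by
    intro p q z hz
    rw [← ball_prod_same] at hz
    exact hz
  constructor
  · refine far_coreN hi hCi hlam hN1 hK0 hK1 hL1 hL2 hint hM2 (z₀ := (x, y)) ?_ ?_ ?_ a b
    · rw [← hr]
      exact fun z hz => ⟨hbx (hsp hz).1, hby (hsp hz).2⟩
    · rw [← hr]
      rintro ⟨z1, z2⟩ hz
      exact (hW z1 (hbx' z1 (hsp hz).1) z2 (hby' z2 (hsp hz).2)).1
    · rw [← hr]
      rintro ⟨z1, z2⟩ hz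
      exact hE z1 (hbx (hsp hz).1) z2 (hby (hsp hz).2) (Or.inr (hby'' z2 (hsp hz).2))
  · refine far_coreN hi hCi hlam hN1 hK0 hK1 hL1 hL2 hint hM2 (z₀ := (y, x)) ?_ ?_ ?_ a b
    · rw [← hr]
      exact fun z hz => ⟨hby (hsp hz).1, hbx (hsp hz).2⟩
    · rw [← hr]
      rintro ⟨z1, z2⟩ hz
      exact (hW z2 (hbx' z2 (hsp hz).2) z1 (hby' z1 (hsp hz).1)).2
    · rw [← hr]
      rintro ⟨z1, z2⟩ hz
      exact hE z1 (hby (hsp hz).1) z2 (hbx (hsp hz).2) (Or.inl (hby'' z1 (hsp hz).1))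

/-! ## The splitting of the pairing -/

theorem dgD_int {k : ℕ} {ε : ℝ} {d : PD n N} {G : Set (V n)} (h : NrmN k ε d G)
    {χ : V n → ℝ} (hχ : Continuous χ) {r₀ : ℝ} (hr₀ : 4 / 5 < r₀)
    (hχ0 : ∀ x ∉ Ac n r₀ 12, χ x = 0) {K : KC n N} (hK : SmK (Oc n ×ˢ Oc n) K) :
    Integrable fun x => (χ x : ℂ) * dgD d K x := by
  have hsub : Ac n r₀ 12 ⊆ Oc n := Ac_sub_Oc hr₀ (by norm_num)
  have hc : ContinuousOn (fun x => (χ x : ℂ) * dgD d K x) (Ac n r₀ 12) :=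
    (Complex.continuous_ofReal.comp hχ).continuousOn.mul ((dgD_cont h isOpen_Oc hK).mono hsub)
  have hi := hc.integrableOn_compact (μ := volume) (isCompact_Ac _ _)
  rw [← integrableOn_iff_integrable_of_support_subset (s := Ac n r₀ 12)]
  · exact hi
  · intro x hx
    by_contra hcon
    apply hx
    simp only
    rw [hχ0 x hcon]
    simp

theorem dgD_int_add {k : ℕ} {ε : ℝ} {d : PD n N} {G : Set (V n)} (h : NrmN k ε d G)
    {χ : V n → ℝ} (hχ : Continuous χ) {r₀ : ℝ} (hr₀ : 4 / 5 < r₀)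
    (hχ0 : ∀ x ∉ Ac n r₀ 12, χ x = 0) {K0 K1 : KC n N} (hK0 : SmK (Oc n ×ˢ Oc n) K0)
    (hK1 : SmK (Oc n ×ˢ Oc n) K1) :
    ∫ x, (χ x : ℂ) * dgD d (fun z => K0 z + K1 z) x =
      (∫ x, (χ x : ℂ) * dgD d K0 x) + ∫ x, (χ x : ℂ) * dgD d K1 x := by
  have hsub : Ac n r₀ 12 ⊆ Oc n := Ac_sub_Oc hr₀ (by norm_num)
  rw [← integral_add (dgD_int h hχ hr₀ hχ0 hK0) (dgD_int h hχ hr₀ hχ0 hK1)]
  refine integral_congr_ae (Eventually.of_forall fun x => ?_)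
  simp only
  by_cases hx : x ∈ Ac n r₀ 12
  · rw [dgD_add isOpen_OO d hK0 hK1 ⟨hsub hx, hsub hx⟩, mul_add]
  · rw [hχ0 x hx]
    simp

end Vale.Agent.P088.S4.H972
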