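import Vale.Agent.P088.R2.H972.P5N.Diag
import Vale.Agent.P088.R2.H359.Cal

/-!
# P088, stage 4, P5N: kernels, smoothness and sums
-/

open MeasureTheory Set
open scoped ContDiff Matrix

noncomputable section

namespace Vale.Agent.P088.S4.H972

open Vale.Agent.P088.LR Vale.Agent.P088.LR.U Vale.Agent.P088.LR.H158
open Vale.Agent.P088.PJ
open Vale.Agent.P088.HY (VV)
open Vale.Agent.P088.HY.T3 (Eb e0 Ao Ac iv)
open Vale.Agent.P088.HY.T4 (gx kk Oc Zq cg Lvl)
open Vale.Agent.P088.PJ.H901 (SmK_dxk SmK_dyk)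
open Vale.Agent.P088.PJ.H359 (DD ex ey dxk_eq dyk_eq DD_congr DD_add smk_DD smk_Lk smk_Rk Lk_add)

variable {n N : ℕ}

/-- The first order coefficients are smooth. -/
theorem b2_sm (n N : ℕ) : ∃ ε : ℝ, 0 < ε ∧ ∀ (d : PD n N) (G : Set (V n)), NrmN 2 ε d G →
    ∀ i, SmC (b2 d i) := by
  obtain ⟨C, δ₀, hC, hδ, hδ1, H⟩ := facts n N
  refine ⟨δ₀, hδ, fun d G hN i => ?_⟩
  have hd := hN.rp.rl.d₂
  obtain ⟨-, hsm, -⟩ := H δ₀ hδ.le le_rfl 2 le_rfl _ d.s₂ d.P₂ d.G₂ hd
  have hT : ∀ i j, SmC (TP d.s₂ d.P₂ i j) := fun i j a b => by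
    show ContDiff ℝ ∞ fun x => (d.s₂ x i j : ℂ) * d.P₂ x a b
    exact (Complex.ofRealCLM.contDiff.comp (hd.ss i j)).mul (hd.sP a b)
  have hk : ∀ j, SmC (kp d.s₂ d.G₂ j) := fun j a b => by
    have e : (fun x => kp d.s₂ d.G₂ j x a b) =
        fun x => ∑ l, (d.s₂ x j l : ℂ) * d.G₂ l x a b := by
      funext x
      simp only [kp, Matrix.sum_apply, Matrix.smul_apply, smul_eq_mul]
    rw [e]
    exact ContDiff.sum fun l _ =>
      (Complex.ofRealCLM.contDiff.comp (hd.ss j l)).mul (hd.sG l a b)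
  have hS : SmC fun x => (∑ l, pdm l (TP d.s₂ d.P₂ l i) x) - kp d.s₂ d.G₂ i x := fun a b => by
    have e : (fun x => ((∑ l, pdm l (TP d.s₂ d.P₂ l i) x) - kp d.s₂ d.G₂ i x) a b) =
        fun x => (∑ l, pdm l (TP d.s₂ d.P₂ l i) x a b) - kp d.s₂ d.G₂ i x a b := by
      funext x
      simp only [Matrix.sub_apply, Matrix.sum_apply]
    rw [e]
    exact (ContDiff.sum fun l _ =>
      (((hT l i) a b).fderiv_right (by simp)).clm_apply contDiff_const).sub (hk i a b)
  exact SmC_mul hS hsm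

theorem Rk_add {O : Set (VV n)} (hO : IsOpen O) {s : MF n} {β : Fin n → MC n N} {K L : KC n N}
    (hK : SmK O K) (hL : SmK O L) :
    ∀ z ∈ O, Rk s β (fun z => K z + L z) z = Rk s β K z + Rk s β L z := by
  intro z hz
  unfold Rk
  simp only [dyk_eq]
  have e1 : ∀ i j, DD (ey i) (DD (ey j) (fun z => K z + L z)) z =
      DD (ey i) (DD (ey j) K) z + DD (ey i) (DD (ey j) L) z := by
    intro i j
    rw [DD_congr hO (ey i) (DD_add hO (ey j) hK hL) z hz,
      DD_add hO _ (smk_DD hO _ hK) (smk_DD hO _ hL) z hz]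
  simp only [e1, DD_add hO _ hK hL z hz, smul_add, add_mul, Finset.sum_add_distrib]
  abel

theorem dgD_add {O : Set (VV n)} (hO : IsOpen O) (d : PD n N) {K L : KC n N}
    (hK : SmK O K) (hL : SmK O L) {x : V n} (hx : (x, x) ∈ O) :
    dgD d (fun z => K z + L z) x = dgD d K x + dgD d L x := by
  unfold dgD dgB
  simp only [dxk_eq, dyk_eq]
  have e1 : ∀ i j, DD (ex i) (DD (ey j) (fun z => K z + L z)) (x, x) =
      DD (ex i) (DD (ey j) K) (x, x) + DD (ex i) (DD (ey j) L) (x, x) := by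
    intro i j
    rw [DD_congr hO (ex i) (DD_add hO (ey j) hK hL) (x, x) hx,
      DD_add hO _ (smk_DD hO _ hK) (smk_DD hO _ hL) (x, x) hx]
  simp only [e1, DD_add hO _ hK hL (x, x) hx, mul_add, Matrix.trace_add, Finset.sum_add_distrib]
  ring

theorem tr_cont {B : Set (V n)} {A : MC n N} {X : V n → Matrix (Fin N) (Fin N) ℂ}
    (hA : ∀ a b, ContinuousOn (fun x => A x a b) B) (hX : ∀ a b, ContinuousOn (fun x => X x a b) B) :
    ContinuousOn (fun x => (A x * X x).trace) B := by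
  have h : (fun x => (A x * X x).trace) = fun x => ∑ a, ∑ b, A x a b * X x b a := by
    funext x
    simp only [Matrix.trace, Matrix.diag, Matrix.mul_apply]
  rw [h]
  exact continuousOn_finsetSum _ fun a _ => continuousOn_finsetSum _ fun b _ =>
    (hA a b).mul (hX b a)

theorem dgD_cont {k : ℕ} {ε : ℝ} {d : PD n N} {G : Set (V n)} (h : NrmN k ε d G)
    {O : Set (V n)} (hO : IsOpen O) {K : KC n N} (hK : SmK (O ×ˢ O) K) :
    ContinuousOn (dgD d K) O := by
  have hOO := hO.prod hO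
  have h1 := h.rp.rl.d₁
  have h2 := h.rp.rl.d₂
  have cT : ∀ (s : MF n) (P : MC n N), SmM s → SmC P → ∀ i j a b,
      Continuous fun x => TP s P i j x a b := fun s P hs hP i j a b => by
    show Continuous fun x => (s x i j : ℂ) * P x a b
    exact (Complex.continuous_ofReal.comp (hs i j).continuous).mul (hP a b).continuous
  have ck : ∀ (s : MF n) (P : Fin n → MC n N), SmM s → (∀ i, SmC (P i)) → ∀ i a b,
      Continuous fun x => kp s P i x a b := fun s P hs hP i a b => by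
    have e : (fun x => kp s P i x a b) = fun x => ∑ l, (s x i l : ℂ) * P l x a b := by
      funext x
      simp only [kp, Matrix.sum_apply, Matrix.smul_apply, smul_eq_mul]
    rw [e]
    exact continuous_finsetSum _ fun l _ =>
      (Complex.continuous_ofReal.comp (hs i l).continuous).mul (hP l a b).continuous
  have hdd : ∀ {L : KC n N}, SmK (O ×ˢ O) L → ∀ a b,
      ContinuousOn (fun x : V n => L (x, x) a b) O := fun hL a b =>
    (hL a b).continuousOn.comp (by fun_prop) fun x hx => ⟨hx, hx⟩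
  unfold dgD dgB
  refine ContinuousOn.sub ?_ ?_
  · refine continuousOn_finsetSum _ fun i _ => continuousOn_finsetSum _ fun j _ => ?_
    refine tr_cont (fun a b => ?_) (hdd (SmK_dxk hOO (SmK_dyk hOO hK j) i))
    exact ((cT _ _ h2.ss h2.sP j i a b).sub (cT _ _ h1.ss h1.sP j i a b)).continuousOn
  · refine continuousOn_finsetSum _ fun i _ => ?_
    refine tr_cont (fun a b => ?_) (hdd (SmK_dxk hOO hK i))
    exact ((ck _ _ h2.ss h2.sG i a b).sub (ck _ _ h1.ss h1.sG i a b)).continuousOn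

end Vale.Agent.P088.S4.H972
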