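import Vale.Agent.P088.R2.H972.P5N.Row

/-!
# P088, stage 4, row P5N
-/

open MeasureTheory Set Filter Topology
open scoped ContDiff Matrix

noncomputable section

namespace Vale.Agent.P088.S4.H972

open Vale.Agent.P088.LR Vale.Agent.P088.LR.U Vale.Agent.P088.LR.H158
open Vale.Agent.P088.PJ
open Vale.Agent.P088.HY (VV)
open Vale.Agent.P088.HY.T3 (Eb e0 Ao Ac iv mem_Eb0 isCompact_Ac rt_ball)
open Vale.Agent.P088.HY.T4 (gx kk Oc Zq cg Lvl ball_Oc isOpen_OO isOpen_Oc Ac_sub_Oc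
  num_sum final_num exists_chi gx_lip)

variable {n N : ℕ}

/-- The numbers of the final step: for a given error constant there are bounds of the parameters
with a contradiction. -/
theorem end_num {a c ν m s C₃ C₄ B Cf Bχ Z : ℝ} (ha : 0 < a) (ha4 : a ≤ 4) (hc : 0 < c)
    (hν : 0 < ν) (hm : 0 < m) (hs : 0 ≤ s) (hsa : (n + 8) * s ≤ a / 4) (hC₃ : 0 ≤ C₃)
    (hC₄ : 0 ≤ C₄) (hB : 0 ≤ B) (hBχ : 0 ≤ Bχ) (hZ : 0 ≤ Z) :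
    ∃ C₀ R₀ η : ℝ, 0 < η ∧ ∀ R kap δ I : ℝ, R₀ ≤ R → 1 ≤ R → R ^ C₀ ≤ kap →
      kap ≤ Real.exp (η * R) → 1 ≤ kap → 0 < δ → δ < 1 → δ * kap ^ m = 1 →
      δ ^ 2 ≤ C₃ * R ^ C₃ * kap ^ ((n + 4) * s) * I →
      I ≤ B * (Cf ^ 2 * √(2 * ((C₄ * Real.exp (-(ν * R / 2))) ^ 2 + Real.exp (2 * -(c * R)) *
        (C₄ * R ^ C₄ * kap ^ (4 * s) * δ ^ 2 * kap ^ (-(n + 4 + a) : ℝ))))) +
        Z * R ^ Z * δ ^ 2 * kap ^ (4 * s - a / 2) + C₄ * (1 + Bχ) * Real.exp (-(ν * R / 2)) →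
      False := by
  obtain ⟨X, hX0, hX⟩ := num_sum (n := n) (s := s) (a := a) (c := c) (ν := ν) (C₃ := C₃) (C₄ := C₄)
    (B := B) (Ci := Cf) (Bχ := Bχ) (Z := Z) hs ha hsa ha4 hC₃ hC₄ hB hBχ hZ
  obtain ⟨C₀f, R₀f, ηf, hηf, hf⟩ := final_num (X := X) (a := a) (c₁ := min c (ν / 2)) (N := m / 2)
    hX0 ha (lt_min hc (by linarith)) (by linarith)
  refine ⟨C₀f, R₀f, ηf, hηf, fun R kap δ I hR hR1 hk1 hk2 hk hδ hδ1 hke h3 hI => ?_⟩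
  exact hf R kap δ hR hR1 hk1 hk2 hδ (by rw [show 2 * (m / 2) = m by ring]; exact hke)
    (hX R kap δ I hR1 hk hδ hδ1 h3 hI)

/-- **P5N.** -/
theorem rowP5N_of (hI : IntN) (hT : S11N) : RowP5N := by
  intro hS p1 _ p3 p4 n N hn hN1
  have hn0 : (0 : ℝ) ≤ n := Nat.cast_nonneg n
  obtain ⟨σ, a, b, ν₀, hσ, hσ1, ha0, ha4, hb, hS⟩ := hS n N hn hN1
  obtain ⟨D, hD⟩ : ∃ D, D = 2 * b + n + 4 + a + 10 := ⟨_, rfl⟩
  have hD0 : 0 ≤ D := by rw [hD]; positivity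
  obtain ⟨q₄, hq₄, ν₁, p4⟩ := p4 n N hn hN1 σ a b hσ hσ1 ha0 ha4 hb D hD.ge
  obtain ⟨q₃, p3⟩ := p3 n N hn hN1 σ hσ hσ1
  obtain ⟨q, hq⟩ : ∃ q, q = max (max q₄ q₃) (4 * D + n + 12) := ⟨_, rfl⟩
  have hqq₄ : q₄ ≤ q := by rw [hq]; exact (le_max_left _ _).trans (le_max_left _ _)
  have hqq₃ : q₃ ≤ q := by rw [hq]; exact (le_max_right _ _).trans (le_max_left _ _)
  have hqD : 4 * D + n + 12 ≤ q := by rw [hq]; exact le_max_right _ _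
  have hq0 : 0 ≤ q := by linarith
  obtain ⟨N₃, p3⟩ := p3 q hqq₃
  obtain ⟨s, hs⟩ : ∃ s : ℝ, s = a / (100 * (n + 10)) := ⟨_, rfl⟩
  have hs0 : 0 < s := by rw [hs]; positivity
  have hs1 : s ≤ 1 := by
    rw [hs, div_le_one (by positivity)]; linarith
  have hsa : (n + 8) * s ≤ a / 4 := by
    rw [hs, mul_div_assoc', div_le_div_iff₀ (by positivity) (by norm_num)]
    nlinarith
  obtain ⟨k₁, ε₁, hε₁, p1⟩ := p1 n N hn hN1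
  obtain ⟨N₁, p1⟩ := p1 σ hσ hσ1 q s hq0 hs0
  obtain ⟨ν, hν⟩ : ∃ ν, ν = max (max (max ν₀ ν₁) (max N₁ N₃)) (2 * q + 100) := ⟨_, rfl⟩
  have hν₀ : ν₀ ≤ ν := by
    rw [hν]; exact (le_max_left _ _).trans ((le_max_left _ _).trans (le_max_left _ _))
  have hν₁ : ν₁ ≤ ν := by
    rw [hν]; exact (le_max_right _ _).trans ((le_max_left _ _).trans (le_max_left _ _))
  have hN₁ : N₁ ≤ ν := by
    rw [hν]; exact (le_max_left _ _).trans ((le_max_right _ _).trans (le_max_left _ _))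
  have hN₃ : N₃ ≤ ν := by
    rw [hν]; exact (le_max_right _ _).trans ((le_max_right _ _).trans (le_max_left _ _))
  have hνq : 2 * q + 100 ≤ ν := by rw [hν]; exact le_max_right _ _
  have hνpos : 0 < ν := by linarith
  obtain ⟨k₀, ε₀, c, C₁, η₀, R₀', hε₀, hc, hC₁3, hη₀, hS⟩ := hS ν hν₀
  obtain ⟨k₈, C8, ε₈, hC8, hε₈, hpb⟩ := pairN hI n N
  obtain ⟨J, k₄, ε₄, hε₄, p4⟩ := p4 ν hν₁ k₈
  obtain ⟨k₃, ε₃, hε₃, p3⟩ := p3 (ν + D) (by linarith)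
  obtain ⟨k₁₁, ε₁₁, hε₁₁, hs11⟩ := hT n N
  obtain ⟨ki, εi, Ci, hεi, hCi, hie⟩ := hI n N
  obtain ⟨k, hk⟩ : ∃ k, k = max (max (max k₀ k₈) (max k₄ k₃)) (max (max k₁₁ ki) k₁) := ⟨_, rfl⟩
  obtain ⟨ε, hε⟩ : ∃ ε, ε = min (min (min ε₀ ε₈) (min ε₄ ε₃)) (min (min ε₁₁ εi) ε₁) := ⟨_, rfl⟩
  have hε0 : 0 < ε := by
    rw [hε]; exact lt_min (lt_min (lt_min hε₀ hε₈) (lt_min hε₄ hε₃)) (lt_min (lt_min hε₁₁ hεi) hε₁)
  refine ⟨k, ε, hε0, fun d G hN hStp => ?_⟩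
  have hNS : NrmN k₀ ε₀ d G := NrmN.mono hN (by rw [hk]; omega) (by rw [hε]; simp)
  have hN8 : NrmN k₈ ε₈ d G := NrmN.mono hN (by rw [hk]; omega) (by rw [hε]; simp)
  have hN4 : NrmN k₄ ε₄ d G := NrmN.mono hN (by rw [hk]; omega) (by rw [hε]; simp)
  have hN3 : NrmN k₃ ε₃ d G := NrmN.mono hN (by rw [hk]; omega) (by rw [hε]; simp)
  have hN11 : NrmN k₁₁ ε₁₁ d G := NrmN.mono hN (by rw [hk]; omega) (by rw [hε]; simp)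
  have hNi : NrmN ki εi d G := NrmN.mono hN (by rw [hk]; omega) (by rw [hε]; simp)
  have hNp : NrmN k₁ ε₁ d G := NrmN.mono hN (by rw [hk]; omega) (by rw [hε]; simp)
  by_contra hcon
  push Not at hcon
  -- the selection
  obtain ⟨J', hJ'⟩ : ∃ J', J' = max J (max k₀ 2) := ⟨_, rfl⟩
  have hJJ : J ≤ J' := by rw [hJ']; omega
  have hJK : k₀ ≤ J' := by rw [hJ']; omega
  have hJ1 : 2 ≤ J' := by rw [hJ']; omega
  obtain ⟨Cs₀, hCs₀, hsel⟩ := p1 (ν + D) (by linarith) J' d G hNp hcon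
  obtain ⟨Cs, hCs⟩ : ∃ Cs, Cs = max Cs₀ 1 := ⟨_, rfl⟩
  have hCs1 : 1 ≤ Cs := by rw [hCs]; exact le_max_right _ _
  have hCss : Cs₀ ≤ Cs := by rw [hCs]; exact le_max_left _ _
  obtain ⟨C₄, C₀₄, R₀₄, η₄, hC₄, hη₄, p4⟩ := p4 s hs0 hs1 c C₁ Cs hc hC₁3 (by linarith)
  obtain ⟨C₃, C₀₃, R₀₃, η₃, hC₃, hη₃, p3⟩ := p3 s hs0 hs1 Cs (by linarith)
  obtain ⟨χ, hχs, hχ0, hχ1, hχ, Bχ, hBχ0, hBχ⟩ := exists_chi n
  have hsubO : Oc n ⊆ Eb 0 24 := fun x hx => (mem_Eb0 (by norm_num)).2 hx.2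
  obtain ⟨B, hB0, hfar⟩ := hs11 d G hN11 hStp (Oc n) χ isOpen_Oc hsubO
    (Ac_sub_Oc (by norm_num) (by norm_num)) hχs hχ0 hχ1
  obtain ⟨Λ, hΛ, hlip⟩ := gx_lip (n := n) σ
  -- the interior estimate
  obtain ⟨lam, hlam⟩ : ∃ lam : ℝ, lam = 2000 * (n + 1) := ⟨_, rfl⟩
  have hlam4 : 4 ≤ lam := by rw [hlam]; linarith
  have hlθ : (n + 1) * (2 / lam) ≤ 1 / 1000 := by
    rw [hlam]
    have : ((n : ℝ) + 1) * (2 / (2000 * (n + 1))) = 1 / 1000 := by field_simp; norm_num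
    rw [this]
  have hiC : IntC d ki Ci := hie d G hNi
  obtain ⟨Cf, hCf⟩ : ∃ Cf, Cf = √(Ci * lam ^ n * N) := ⟨_, rfl⟩
  have hCf2 : Cf ^ 2 = Ci * lam ^ n * N := by
    rw [hCf, Real.sq_sqrt (by positivity)]
  obtain ⟨Z, hZ0, hZ⟩ := num_T1N (n := n) (s := s) (a := a) (Cs := Cs) (C := C₁) (C4 := C₄)
    (C8 := C8) (v := volume.real (Ac n 1 12)) (cd := cdg n N) (cu := cU n N) (by omega) hs0.le
    ha4 (by linarith) (by linarith) hC₄ hC8.le measureReal_nonneg (cdg_nn n N) (cU_nn n N)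
  obtain ⟨m, hm⟩ : ∃ m, m = ν + D - q / 2 := ⟨_, rfl⟩
  have hm0 : 0 < m := by rw [hm]; linarith
  have hmν : m ≤ ν := by rw [hm]; linarith
  obtain ⟨C₀f, R₀f, ηf, hηf, hf⟩ := end_num (n := n) (a := a) (c := c) (ν := ν) (m := m) (s := s)
    (C₃ := C₃) (C₄ := C₄) (B := B) (Cf := Cf) (Bχ := Bχ) (Z := Z) ha0 ha4 hc hνpos hm0 hs0.le hsa
    hC₃ hC₄ hB0 hBχ0 hZ0
  obtain ⟨C₀, hC₀⟩ : ∃ C₀, C₀ = max (max C₁ (Cs + 1)) (max C₀₄ (max C₀₃ C₀f)) := ⟨_, rfl⟩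
  obtain ⟨R₀, hR₀⟩ : ∃ R₀, R₀ = max (max R₀' (max Cs (40 * (n + 1) + 8 * Λ)))
    (max R₀₄ (max R₀₃ R₀f)) := ⟨_, rfl⟩
  obtain ⟨η, hη⟩ : ∃ η, η = min (min η₀ ηf) (min η₄ η₃) := ⟨_, rfl⟩
  have hη0 : 0 < η := by rw [hη]; exact lt_min (lt_min hη₀ hηf) (lt_min hη₄ hη₃)
  obtain ⟨R, kap, Gs, δ, ps, hRR, hR1, hk1, hk2, hGs, hke, hSel⟩ := hsel C₀ R₀ η hη0
  have hk1' := hSel.k1
  have hδ0 := hSel.δ0
  have hRe : ∀ C', C' ≤ C₀ → R ^ C' ≤ kap := fun C' h =>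
    (Real.rpow_le_rpow_of_exponent_le hR1 h).trans hk1
  have hRR' : ∀ r, r ≤ R₀ → r ≤ R := fun r h => h.trans hRR
  have hke' : ∀ η', η ≤ η' → kap ≤ Real.exp (η' * R) := fun η' h =>
    hk2.trans (Real.exp_le_exp.2 (mul_le_mul_of_nonneg_right h (by linarith)))
  have hGe : ∀ η', η ≤ η' → -η' ≤ Gs := fun η' h => by linarith
  have c1 : C₁ ≤ C₀ := by rw [hC₀]; simp
  have c2 : Cs + 1 ≤ C₀ := by rw [hC₀]; simp
  have c3 : C₀₄ ≤ C₀ := by rw [hC₀]; simp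
  have c4 : C₀₃ ≤ C₀ := by rw [hC₀]; simp
  have c5 : C₀f ≤ C₀ := by rw [hC₀]; simp
  have r1 : R₀' ≤ R := hRR' _ (by rw [hR₀]; simp)
  have r2 : Cs ≤ R := hRR' _ (by rw [hR₀]; simp)
  have r3 : 40 * (n + 1) + 8 * Λ ≤ R := hRR' _ (by
    rw [hR₀]; exact (le_max_right _ _).trans ((le_max_right _ _).trans (le_max_left _ _)))
  have r4 : R₀₄ ≤ R := hRR' _ (by rw [hR₀]; simp)
  have r5 : R₀₃ ≤ R := hRR' _ (by rw [hR₀]; simp)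
  have r6 : R₀f ≤ R := hRR' _ (by rw [hR₀]; simp)
  have e1 : η ≤ η₀ := by rw [hη]; simp
  have e2 : η ≤ ηf := by rw [hη]; simp
  have e3 : η ≤ η₄ := by rw [hη]; simp
  have e4 : η ≤ η₃ := by rw [hη]; simp
  have hSelC := SelDN.monoC hR1 hCs₀ hCss hSel
  have hR0 : 0 < R := by linarith
  have hCsR : Cs * R ^ Cs ≤ kap := by
    calc Cs * R ^ Cs ≤ R * R ^ Cs := by gcongr
      _ = R ^ (Cs + 1) := by rw [Real.rpow_add hR0, Real.rpow_one]; ring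
      _ ≤ kap := hRe _ c2
  -- the weight
  obtain ⟨W, w, hWB⟩ := hS d G hNS R kap Gs r1 hR1 (hGe _ e1) hSel.gs0 hk1' (hRe _ c1)
    (hke' _ e1) (fun i j l hl x hx hkk => SelDN.small hR1 (by linarith) hs0.le (by linarith) hD0
      (by linarith) hCsR hke hSelC i j l (hl.trans hJK) x hx hkk)
  -- the quasimode
  obtain ⟨K0, hQ⟩ := p4 d G hN4 R kap Gs δ ps r4 hR1 (hRe _ c3) (hke' _ e3) (hGe _ e3)
    (SelDN.mono (by linarith) (by linarith) hqq₄ hJJ hSelC)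
  -- the lower bound of the main term
  have h3 := p3 d G hN3 R kap Gs δ ps r5 hR1 (hRe _ c4) (hke' _ e4) (hGe _ e4)
    (SelDN.mono (by linarith) (by linarith) le_rfl hJ1 hSelC)
  -- the upper bound
  have hSel0 := SelDN.mono (q' := D + n + 4) (J' := 0) (by linarith) (by linarith) (by linarith)
    (Nat.zero_le _) hSelC
  have hkem : δ * kap ^ m = 1 := by rw [hm]; exact hke
  have hk0 : 0 < kap := by linarith
  have hmain := main_ineqN hN hN1 hQ hWB hlam4 hlθ hCi.le hiC hCf2 hχs hχ0 hχ1 hχ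
    hBχ hfar (T₁ := Z * R ^ Z * δ ^ 2 * kap ^ (4 * s - a / 2))
    (fun K1 hK1 hL1 hL2 hint hM2 => (hpb d G hN8 σ Λ ν D (D + n + 4) m s C₁ Cs
      (C₄ * R ^ C₄ * kap ^ (2 * s - 2) * δ) a b c R kap Gs δ
      (C₄ * R ^ C₄ * kap ^ (4 * s) * δ ^ 2 * kap ^ (-(n + 4 + a) : ℝ)) ps W w K0 K1 hlip hΛ hD0
      le_rfl hC₁3 hCs1 (by positivity) hR1 r3 hs0.le hνpos.le hmν hkem hWB hSel0 hQ.sm hQ.jt
      hK1 hL1 hL2 hint hM2 χ (fun x hx => hχ0 x fun h => absurd h.2 (not_le.2 hx)) hχ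
      (kap ^ (-(n + 4) - a / 2 : ℝ)) (by positivity)).trans (hZ R kap δ hR1 hk1' hδ0))
  exact hf R kap δ _ r6 hR1 (hRe _ c5) (hke' _ e2) hk1' hδ0 hSel.δ1 hkem h3 hmain

end Vale.Agent.P088.S4.H972
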