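import Vale.Agent.P088.R2.H972.P5N.Dg
import Vale.Agent.P088.R2.H972.XME.Row
import Vale.Agent.P088.R2.H404.P5b

/-!
# P088, stage 4, P5N: monotonicity, the size of the differences
-/

open MeasureTheory Set
open scoped ContDiff Matrix

noncomputable section

namespace Vale.Agent.P088.S4.H972

open Vale.Agent.P088.LR Vale.Agent.P088.LR.U Vale.Agent.P088.LR.H158
open Vale.Agent.P088.PJ
open Vale.Agent.P088.HY (VV)
open Vale.Agent.P088.HY.T3 (Eb e0 Ao Ac iv)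
open Vale.Agent.P088.HY.T4 (gx kk Oc Zq cg Lvl)

variable {n N : ℕ}

theorem NrmN.mono {k k' : ℕ} {ε ε' : ℝ} {d : PD n N} {G : Set (V n)} (h : NrmN k ε d G)
    (hk : k' ≤ k) (hε : ε ≤ ε') : NrmN k' ε' d G :=
  { h with
    rp := { h.rp with
      rl := RL.mono h.rp.rl hk hε
      ig := IG.mono h.rp.ig hk hε } }

theorem SelDN.mono {d : PD n N} {σ ν q q' : ℝ} {J J' : ℕ} {C s R kap Gs δ : ℝ} {ps : V n}
    (hR : 0 ≤ R) (hC : 0 ≤ C) (hq : q' ≤ q) (hJ : J' ≤ J)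
    (h : SelDN d σ ν q J C s R kap Gs δ ps) : SelDN d σ ν q' J' C s R kap Gs δ ps := by
  have hk0 : 0 < kap := by linarith [h.k1]
  have h0 : 0 ≤ C * R ^ C * kap ^ s * δ := by
    have := h.δ0
    positivity
  have key : ∀ x, C * R ^ C * kap ^ s * δ * Real.exp (-(q * R * |gx n σ x - Gs|)) ≤
      C * R ^ C * kap ^ s * δ * Real.exp (-(q' * R * |gx n σ x - Gs|)) := fun x => by
    refine mul_le_mul_of_nonneg_left (Real.exp_le_exp.2 ?_) h0
    have : 0 ≤ R * |gx n σ x - Gs| := mul_nonneg hR (abs_nonneg _)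
    nlinarith
  exact ⟨h.pm, h.gs, h.gs0, h.δ0, h.δ1, h.δe, h.k1, h.ke,
    fun i j l hl x hx => (h.js i j l (hl.trans hJ) x hx).trans (key x),
    fun a b l hl x hx => (h.jP a b l (hl.trans hJ) x hx).trans (key x),
    fun i a b l hl x hx => (h.jD i a b l (hl.trans hJ) x hx).trans (key x),
    fun i a b l hl x hx => (h.jG i a b l (hl.trans hJ) x hx).trans (key x)⟩

/-- the smallness of the difference of the metrics -/
theorem SelDN.small {d : PD n N} {σ ν D q : ℝ} {J : ℕ} {C s R kap Gs δ : ℝ} {ps : V n}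
    (hR : 1 ≤ R) (hC : 0 ≤ C) (hs : 0 ≤ s) (hq : 2 * s + 4 ≤ q) (hD : 0 ≤ D)
    (hν : 2 * q + 2 * s + 4 ≤ ν) (hk : C * R ^ C ≤ kap) (hke : δ * kap ^ (ν + D - q / 2) = 1)
    (h : SelDN d σ (ν + D) q J C s R kap Gs δ ps) (i j : Fin n) (l : ℕ)
    (hl : l ≤ J) (x : V n) (hx : x ∈ Ac n (4 / 5) 22) (hkk : 1 ≤ kk n σ R kap Gs x) :
    ‖iteratedFDeriv ℝ l (fun y => d.s₂ y i j - d.s₁ y i j) x‖ ≤
      kap⁻¹ * kk n σ R kap Gs x ^ (-(ν / 2)) := by
  have h1 := h.js i j l hl x hx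
  have hk1 := h.k1
  have hk0 : 0 < kap := by linarith
  obtain ⟨T, hT⟩ : ∃ T, T = R * (gx n σ x - Gs) := ⟨_, rfl⟩
  obtain ⟨L, hL⟩ : ∃ L, L = Real.log kap := ⟨_, rfl⟩
  have hL0 : 0 ≤ L := by rw [hL]; exact Real.log_nonneg hk1
  have hkL : kap = Real.exp L := by rw [hL, Real.exp_log hk0]
  have hR0 : 0 < R := by linarith
  have habs : R * |gx n σ x - Gs| = |T| := by rw [hT, abs_mul, abs_of_pos hR0]
  have e1 : (ν + D) * R * (gx n σ x - Gs) = (ν + D) * T := by rw [hT]; ring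
  have e2 : q * R * |gx n σ x - Gs| = q * |T| := by rw [mul_assoc, habs]
  rw [e1, e2] at h1
  have hδ := HY.T4.SelD.exp_ke hk0 hke
  rw [← hL] at hδ
  have hkkT : kk n σ R kap Gs x = Real.exp (L + T) := by
    unfold kk
    rw [hkL, ← Real.exp_add, hT]
  rw [hkkT] at hkk ⊢
  have hLT : 0 ≤ L + T := by
    have := Real.log_le_log one_pos hkk
    rwa [Real.log_one, Real.log_exp] at this
  have h3 : kap⁻¹ * Real.exp (L + T) ^ (-(ν / 2)) = Real.exp (-L - ν / 2 * (L + T)) := by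
    rw [hkL, ← Real.exp_neg, ← Real.exp_mul, ← Real.exp_add]
    congr 1; ring
  rw [h3]
  have h2 : ‖iteratedFDeriv ℝ l (fun y => d.s₂ y i j - d.s₁ y i j) x‖ =
      ‖iteratedFDeriv ℝ l (fun y => d.s₂ y i j - d.s₁ y i j) x‖ * Real.exp ((ν + D) * T) *
        Real.exp (-((ν + D) * T)) := by
    rw [mul_assoc, ← Real.exp_add]; simp
  rw [h2]
  have hδ0 := h.δ0
  have hks : kap ^ s = Real.exp (L * s) := by rw [hkL, ← Real.exp_mul]
  calc _ ≤ C * R ^ C * kap ^ s * δ * Real.exp (-(q * |T|)) * Real.exp (-((ν + D) * T)) :=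
        mul_le_mul_of_nonneg_right h1 (Real.exp_pos _).le
    _ ≤ kap * kap ^ s * δ * Real.exp (-(q * |T|)) * Real.exp (-((ν + D) * T)) := by gcongr
    _ = Real.exp (L + L * s + -((ν + D - q / 2) * L) + -(q * |T|) + -((ν + D) * T)) := by
        rw [hks, hδ, Real.exp_add, Real.exp_add, Real.exp_add, Real.exp_add, ← hkL]
    _ ≤ Real.exp (-L - ν / 2 * (L + T)) := by
        refine Real.exp_le_exp.2 ?_
        rcases le_total 0 T with h0 | h0
        · rw [abs_of_nonneg h0]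
          have a1 : 0 ≤ q * T := mul_nonneg (by linarith) h0
          have a2 : 0 ≤ (ν / 2 + D) * T := mul_nonneg (by linarith) h0
          have a3 : 0 ≤ (ν / 2 + D - q / 2 - 2 - s) * L := mul_nonneg (by linarith) hL0
          nlinarith
        · rw [abs_of_nonpos h0]
          have a1 : 0 ≤ (ν / 2 + D - q) * (L + T) := mul_nonneg (by linarith) hLT
          have a2 : 0 ≤ (q / 2 - 2 - s) * L := mul_nonneg (by linarith) hL0
          nlinarith

/-! ## The size of the differences -/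

/-- The sum of all differences of the coefficients. -/
def Uf (d : PD n N) (x : V n) : ℝ := (∑ i, ∑ j, |d.s₂ x i j - d.s₁ x i j|) +
  (∑ a, ∑ b, ‖d.P₂ x a b - d.P₁ x a b‖) + ∑ i, ∑ a, ∑ b, ‖d.G₂ i x a b - d.G₁ i x a b‖

/-- The number of the entries. -/
def cU (n N : ℕ) : ℝ := n * n + N * N + n * (N * N)

theorem cU_nn (n N : ℕ) : 0 ≤ cU n N := by unfold cU; positivity

theorem Uf_nn (d : PD n N) (x : V n) : 0 ≤ Uf d x := by unfold Uf; positivity

theorem Uf_dip (d : PD n N) (x : V n) : DiP d (Uf d x) x := by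
  have h1 : 0 ≤ ∑ i, ∑ j, |d.s₂ x i j - d.s₁ x i j| := by positivity
  have h2 : 0 ≤ ∑ a, ∑ b, ‖d.P₂ x a b - d.P₁ x a b‖ := by positivity
  have h3 : 0 ≤ ∑ i, ∑ a, ∑ b, ‖d.G₂ i x a b - d.G₁ i x a b‖ := by positivity
  refine ⟨fun i j => ?_, fun a b => ?_, fun i a b => ?_⟩
  · have e1 : |d.s₂ x i j - d.s₁ x i j| ≤ ∑ j, |d.s₂ x i j - d.s₁ x i j| :=
      Finset.single_le_sum (f := fun j => |d.s₂ x i j - d.s₁ x i j|) (fun j _ => abs_nonneg _)
        (Finset.mem_univ j)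
    have e2 : ∑ j, |d.s₂ x i j - d.s₁ x i j| ≤ ∑ i, ∑ j, |d.s₂ x i j - d.s₁ x i j| :=
      Finset.single_le_sum (f := fun i => ∑ j, |d.s₂ x i j - d.s₁ x i j|)
        (fun i _ => by positivity) (Finset.mem_univ i)
    unfold Uf; linarith
  · have e1 : ‖d.P₂ x a b - d.P₁ x a b‖ ≤ ∑ b, ‖d.P₂ x a b - d.P₁ x a b‖ :=
      Finset.single_le_sum (f := fun b => ‖d.P₂ x a b - d.P₁ x a b‖) (fun j _ => norm_nonneg _)
        (Finset.mem_univ b)
    have e2 : ∑ b, ‖d.P₂ x a b - d.P₁ x a b‖ ≤ ∑ a, ∑ b, ‖d.P₂ x a b - d.P₁ x a b‖ :=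
      Finset.single_le_sum (f := fun a => ∑ b, ‖d.P₂ x a b - d.P₁ x a b‖)
        (fun i _ => by positivity) (Finset.mem_univ a)
    unfold Uf; linarith
  · have e1 : ‖d.G₂ i x a b - d.G₁ i x a b‖ ≤ ∑ b, ‖d.G₂ i x a b - d.G₁ i x a b‖ :=
      Finset.single_le_sum (f := fun b => ‖d.G₂ i x a b - d.G₁ i x a b‖)
        (fun j _ => norm_nonneg _) (Finset.mem_univ b)
    have e2 : ∑ b, ‖d.G₂ i x a b - d.G₁ i x a b‖ ≤ ∑ a, ∑ b, ‖d.G₂ i x a b - d.G₁ i x a b‖ :=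
      Finset.single_le_sum (f := fun a => ∑ b, ‖d.G₂ i x a b - d.G₁ i x a b‖)
        (fun i _ => by positivity) (Finset.mem_univ a)
    have e3 : ∑ a, ∑ b, ‖d.G₂ i x a b - d.G₁ i x a b‖ ≤
        ∑ i, ∑ a, ∑ b, ‖d.G₂ i x a b - d.G₁ i x a b‖ :=
      Finset.single_le_sum (f := fun i => ∑ a, ∑ b, ‖d.G₂ i x a b - d.G₁ i x a b‖)
        (fun i _ => by positivity) (Finset.mem_univ i)
    unfold Uf; linarith

theorem Uf_le {d : PD n N} {U : ℝ} {x : V n} (h : DiP d U x) : Uf d x ≤ cU n N * U := by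
  unfold Uf cU
  have h1 : ∑ i, ∑ j, |d.s₂ x i j - d.s₁ x i j| ≤ n * (n * U) := by
    calc _ ≤ ∑ _i : Fin n, ∑ _j : Fin n, U :=
          Finset.sum_le_sum fun i _ => Finset.sum_le_sum fun j _ => h.ds i j
      _ = _ := by simp only [Finset.sum_const, Finset.card_univ, Fintype.card_fin, nsmul_eq_mul]
  have h2 : ∑ a, ∑ b, ‖d.P₂ x a b - d.P₁ x a b‖ ≤ N * (N * U) := by
    calc _ ≤ ∑ _i : Fin N, ∑ _j : Fin N, U :=
          Finset.sum_le_sum fun i _ => Finset.sum_le_sum fun j _ => h.dP i j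
      _ = _ := by simp only [Finset.sum_const, Finset.card_univ, Fintype.card_fin, nsmul_eq_mul]
  have h3 : ∑ i, ∑ a, ∑ b, ‖d.G₂ i x a b - d.G₁ i x a b‖ ≤ n * (N * (N * U)) := by
    calc _ ≤ ∑ _i : Fin n, ∑ _a : Fin N, ∑ _j : Fin N, U :=
          Finset.sum_le_sum fun i _ => Finset.sum_le_sum fun a _ =>
            Finset.sum_le_sum fun j _ => h.dG i a j
      _ = _ := by simp only [Finset.sum_const, Finset.card_univ, Fintype.card_fin, nsmul_eq_mul]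
  calc _ ≤ n * (n * U) + N * (N * U) + n * (N * (N * U)) := by linarith
    _ = _ := by ring

theorem cl_zero {F : Type*} [NormedAddCommGroup F] [NormedSpace ℝ F] {k : ℕ} {ε : ℝ}
    {f : V n → F} (h : Cl k ε f) (x : V n) : ‖f x‖ ≤ ε := by
  have := h 0 (Nat.zero_le _) x
  rwa [norm_iteratedFDeriv_zero] at this

theorem DiP_eps {k : ℕ} {ε : ℝ} {d : PD n N} {G : Set (V n)} (h : NrmN k ε d G) (x : V n) :
    DiP d (2 * ε) x := by
  refine ⟨fun i j => ?_, fun a b => ?_, fun i a b => ?_⟩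
  · have h1 := cl_zero (h.rp.rl.d₁.cs i j) x
    have h2 := cl_zero (h.rp.rl.d₂.cs i j) x
    rw [Real.norm_eq_abs] at h1 h2
    have e : d.s₂ x i j - d.s₁ x i j = (d.s₂ x i j - (1 : Matrix (Fin n) (Fin n) ℝ) i j) -
        (d.s₁ x i j - (1 : Matrix (Fin n) (Fin n) ℝ) i j) := by ring
    rw [e]
    refine (abs_sub _ _).trans ?_
    linarith
  · have h1 : ‖(d.P₁ x - 1) a b‖ ≤ ε := cl_zero (h.rp.rl.d₁.cP a b) x
    have h2 : ‖(d.P₂ x - 1) a b‖ ≤ ε := cl_zero (h.rp.rl.d₂.cP a b) x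
    have e : d.P₂ x a b - d.P₁ x a b = (d.P₂ x - 1) a b - (d.P₁ x - 1) a b := by
      rw [Matrix.sub_apply, Matrix.sub_apply]; ring
    rw [e]
    refine (norm_sub_le _ _).trans ?_
    linarith
  · have h1 := cl_zero (h.rp.rl.d₁.cG i a b) x
    have h2 := cl_zero (h.rp.rl.d₂.cG i a b) x
    refine (norm_sub_le _ _).trans ?_
    linarith

theorem Uf_eps {k : ℕ} {ε : ℝ} {d : PD n N} {G : Set (V n)} (h : NrmN k ε d G)
    (hε : ε * (2 * cU n N) ≤ 1) (x : V n) : Uf d x ≤ 1 := by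
  have := Uf_le (DiP_eps h x)
  linarith

theorem Uf_sel {d : PD n N} {σ ν q : ℝ} {J : ℕ} {C s R kap Gs δ : ℝ} {ps : V n}
    (h : SelDN d σ ν q J C s R kap Gs δ ps) {x : V n} (hx : x ∈ Ac n (4 / 5) 22) :
    Uf d x * Real.exp (ν * R * (gx n σ x - Gs)) ≤
      cU n N * (C * R ^ C * kap ^ s * δ) * Real.exp (-(q * R * |gx n σ x - Gs|)) := by
  obtain ⟨E, hE⟩ : ∃ E, E = Real.exp (ν * R * (gx n σ x - Gs)) := ⟨_, rfl⟩
  have hE0 : 0 < E := by rw [hE]; exact Real.exp_pos _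
  obtain ⟨A, hA⟩ : ∃ A, A = C * R ^ C * kap ^ s * δ * Real.exp (-(q * R * |gx n σ x - Gs|)) :=
    ⟨_, rfl⟩
  have hd : DiP d (A / E) x := by
    refine ⟨fun i j => ?_, fun a b => ?_, fun i a b => ?_⟩
    · have h1 := h.js i j 0 (Nat.zero_le _) x hx
      rw [norm_iteratedFDeriv_zero, Real.norm_eq_abs, ← hE, ← hA] at h1
      rwa [le_div_iff₀ hE0]
    · have h1 := h.jP a b 0 (Nat.zero_le _) x hx
      rw [norm_iteratedFDeriv_zero, ← hE, ← hA] at h1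
      rwa [le_div_iff₀ hE0]
    · have h1 := h.jG i a b 0 (Nat.zero_le _) x hx
      rw [norm_iteratedFDeriv_zero, ← hE, ← hA] at h1
      rwa [le_div_iff₀ hE0]
  have h2 := Uf_le hd
  rw [← hE, mul_assoc (cU n N), ← hA]
  calc Uf d x * E ≤ cU n N * (A / E) * E := mul_le_mul_of_nonneg_right h2 hE0.le
    _ = cU n N * A := by field_simp

end Vale.Agent.P088.S4.H972
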