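import Vale.Agent.P088.R2.H972.P5N.Ker
import Vale.Agent.P088.R2.H404.P5e

/-!
# P088, stage 4, P5N: numbers
-/

open MeasureTheory Set Filter Topology
open scoped ContDiff Matrix

noncomputable section

namespace Vale.Agent.P088.S4.H972

open Vale.Agent.P088.LR Vale.Agent.P088.LR.U Vale.Agent.P088.LR.H158
open Vale.Agent.P088.PJ
open Vale.Agent.P088.HY (VV)
open Vale.Agent.P088.HY.T3 (Eb e0 Ao Ac iv mem_Eb0 isCompact_Ac rt_ball)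
open Vale.Agent.P088.HY.T4 (gx kk Oc Zq cg Lvl ball_Oc isOpen_OO isOpen_Oc Ac_sub_Oc
  vol_ball_prod num_T1)
open Vale.Agent.P088.PJ.H359 (smk_Lk smk_Rk Lk_add)

variable {n N : ℕ}

/-! ## Numbers -/

theorem num_mono {x y P1 P2 P3 v : ℝ} (hx : 0 ≤ x) (hxy : x ≤ y) (p1 : 0 ≤ P1) (p2 : 0 ≤ P2)
    (p3 : 0 ≤ P3) (hv : 0 ≤ v) (Q : ℝ) :
    P1 * (x ^ 2 * P2 * P3 * v) + Q ≤ P1 * (y ^ 2 * P2 * P3 * v) + Q := by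
  gcongr

theorem num_pt {x y P1 P2 P3 v Q cd n₀ Z R E D2 K4 : ℝ} (hx : 0 ≤ x) (hxy : x ≤ y)
    (p1 : 0 ≤ P1) (p2 : 0 ≤ P2) (p3 : 0 ≤ P3) (hv : 0 ≤ v) (hQ : 0 ≤ Q) (hcd : 0 ≤ cd)
    (hn : 1 ≤ n₀) (hZ : 0 ≤ Z) (hR : 0 ≤ R) (hRE : R ≤ E) (hD : 0 ≤ D2) (hK : 0 ≤ K4)
    (h1 : n₀ * (n₀ * (P1 * (y ^ 2 * P2 * P3 * v) + Q)) ≤ Z * R * D2 * K4) :
    cd * (P1 * (x ^ 2 * P2 * P3 * v) + Q) ≤ (cd + 1) * Z * E * D2 * K4 := by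
  have e4 := num_mono hx hxy p1 p2 p3 hv Q
  obtain ⟨T, hT⟩ : ∃ T : ℝ, T = P1 * (y ^ 2 * P2 * P3 * v) + Q := ⟨_, rfl⟩
  rw [← hT] at e4 h1
  have hT0 : 0 ≤ T := by rw [hT]; positivity
  have e5 : T ≤ n₀ * (n₀ * T) := by
    have h2 : T ≤ n₀ * T := by nlinarith
    nlinarith
  have e7 : Z * R * D2 * K4 ≤ Z * E * D2 * K4 := by gcongr
  have e8 : 0 ≤ Z * E * D2 * K4 := by
    have := hR.trans hRE
    positivity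
  calc _ ≤ cd * T := mul_le_mul_of_nonneg_left e4 hcd
    _ ≤ cd * (Z * E * D2 * K4) := mul_le_mul_of_nonneg_left ((e5.trans h1).trans e7) hcd
    _ ≤ _ := by linarith

/-- the pairing term -/
theorem num_T1N {s a Cs C C4 C8 v cd cu : ℝ} (hn : 1 ≤ n) (hs : 0 ≤ s) (ha : a ≤ 4)
    (hCs : 0 ≤ Cs) (hC : 0 ≤ C) (hC4 : 0 ≤ C4) (hC8 : 0 ≤ C8) (hv : 0 ≤ v) (hcd : 0 ≤ cd)
    (hcu : 0 ≤ cu) : ∃ Z : ℝ, 0 ≤ Z ∧ ∀ R kap δ : ℝ, 1 ≤ R → 1 ≤ kap → 0 < δ →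
    cd * (kap ^ (-(n + 4) - a / 2 : ℝ) / 2 * (((cu + 1) * (Cs * R ^ Cs * kap ^ s * δ)) ^ 2 *
      (2 * R ^ C) ^ (n + 4) * kap ^ (n + 4) * v) + 1 / (2 * kap ^ (-(n + 4) - a / 2 : ℝ)) *
        (C8 * (Real.exp (2 * C) * R ^ (2 * C) * (C4 * R ^ C4 * kap ^ (4 * s) * δ ^ 2 *
          kap ^ (-(n + 4 + a) : ℝ)) + (C4 * R ^ C4 * kap ^ (2 * s - 2) * δ) ^ 2 *
            (kap ^ (n + 4))⁻¹ * v))) ≤ Z * R ^ Z * δ ^ 2 * kap ^ (4 * s - a / 2) := by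
  have hCs' : 0 ≤ (cu + 1) * Cs := by positivity
  obtain ⟨Z, hZ, h⟩ := num_T1 (n := n) (s := s) (a := a) (Cs := (cu + 1) * Cs) (C := C) (C4 := C4)
    (C8 := C8) (v := v) (R := 1) (kap := 1) (δ := 1) hs ha hCs' hC hC4 hC8 hv
  have hcd1 : 0 ≤ (cd + 1) * Z := by positivity
  refine ⟨(cd + 1) * Z, hcd1, fun R kap δ hR hk hδ => ?_⟩
  have hk0 : 0 < kap := by linarith
  have hR0 : 0 < R := by linarith
  have hn1 : (1 : ℝ) ≤ n := by exact_mod_cast hn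
  have h1 := h R kap δ hR hk hδ
  have e1 : R ^ Cs ≤ R ^ ((cu + 1) * Cs) :=
    Real.rpow_le_rpow_of_exponent_le hR (by nlinarith)
  have e2 : (cu + 1) * (Cs * R ^ Cs * kap ^ s * δ) ≤
      (cu + 1) * Cs * R ^ ((cu + 1) * Cs) * kap ^ s * δ := by
    have e3 : (cu + 1) * (Cs * R ^ Cs * kap ^ s * δ) = (cu + 1) * Cs * R ^ Cs * (kap ^ s * δ) := by
      ring
    rw [e3, mul_assoc _ (kap ^ s) δ]
    exact mul_le_mul_of_nonneg_right (mul_le_mul_of_nonneg_left e1 hCs')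
      (mul_nonneg (Real.rpow_nonneg hk0.le _) hδ.le)
  have e6 : R ^ Z ≤ R ^ ((cd + 1) * Z) :=
    Real.rpow_le_rpow_of_exponent_le hR (by nlinarith)
  have q1 : 0 ≤ kap ^ (-(n + 4) - a / 2 : ℝ) := Real.rpow_nonneg hk0.le _
  have q2 : 0 ≤ 1 / (2 * kap ^ (-(n + 4) - a / 2 : ℝ)) :=
    div_nonneg zero_le_one (mul_nonneg zero_le_two q1)
  have q3 : 0 ≤ Real.exp (2 * C) * R ^ (2 * C) * (C4 * R ^ C4 * kap ^ (4 * s) * δ ^ 2 *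
          kap ^ (-(n + 4 + a) : ℝ)) := by positivity
  have q4 : 0 ≤ (C4 * R ^ C4 * kap ^ (2 * s - 2) * δ) ^ 2 * (kap ^ (n + 4))⁻¹ * v := by
    positivity
  exact num_pt (by positivity) e2 (div_nonneg q1 zero_le_two) (by positivity) (by positivity) hv
    (mul_nonneg q2 (mul_nonneg hC8 (add_nonneg q3 q4))) hcd hn1 hZ (Real.rpow_nonneg hR0.le _) e6
    (sq_nonneg δ) (Real.rpow_nonneg hk0.le _) h1

end Vale.Agent.P088.S4.H972
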