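import Vale.Agent.P088.R2.H972.P5N.Ker
import Vale.Agent.P088.R2.H404.P5c

/-!
# P088, stage 4, P5N: the pairing with the correction
-/

open MeasureTheory Set Filter Topology
open scoped ContDiff Matrix

noncomputable section

namespace Vale.Agent.P088.S4.H972

open Vale.Agent.P088.LR Vale.Agent.P088.LR.U Vale.Agent.P088.LR.H158
open Vale.Agent.P088.PJ
open Vale.Agent.P088.HY (VV)
open Vale.Agent.P088.HY.T3 (Eb e0 Ao Ac iv mem_Eb0 isCompact_Ac)
open Vale.Agent.P088.HY.T4 (gx kk Oc Zq cg Lvl lamf omf lamf_ge omf_pos lamf_meas omf_meas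
  gx_meas slow ball_Oc isOpen_OO kk_pos num_om num_h num_low)
open Vale.Agent.P088.PJ.H359 (smk_Lk smk_Rk)

variable {n N : ℕ}

/-- the integral of the density -/
theorem int_densN {B : Set (V n)} (hB : MeasurableSet B) (hBf : volume B ≠ ⊤)
    {f : V n → ℂ} {h X om : V n → ℝ} {c τ Eh Q : ℝ} (hc : 0 ≤ c) (hτ : 0 < τ)
    (hf0 : ∀ x ∉ B, f x = 0) (hX0 : ∀ x ∈ B, 0 ≤ X x)
    (hf : ∀ x ∈ B, ‖f x‖ ≤ c * |h x * √(X x)|)
    (hom : ∀ x ∈ B, 0 < om x) (hh : ∀ x ∈ B, h x ^ 2 * (om x)⁻¹ ≤ Eh)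
    (hX : IntegrableOn (fun x => om x * X x) B) (hQ : ∫ x in B, om x * X x ≤ Q) :
    ‖∫ x, f x‖ ≤ c * (τ / 2 * (Eh * volume.real B) + 1 / (2 * τ) * Q) := by
  rw [← setIntegral_eq_integral_of_forall_compl_eq_zero hf0]
  have hfin : IsFiniteMeasure (volume.restrict B) :=
    ⟨by rw [Measure.restrict_apply_univ]; exact lt_top_iff_ne_top.2 hBf⟩
  have hg : IntegrableOn (fun x => c * (τ / 2 * Eh + 1 / (2 * τ) * (om x * X x))) B :=
    ((integrable_const _).add (hX.const_mul _)).const_mul _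
  have h1 : ∀ x ∈ B, ‖f x‖ ≤ c * (τ / 2 * Eh + 1 / (2 * τ) * (om x * X x)) := by
    intro x hx
    refine (hf x hx).trans (mul_le_mul_of_nonneg_left ?_ hc)
    refine (HY.T4.young (hom x hx) hτ).trans ?_
    rw [Real.sq_sqrt (hX0 x hx)]
    have := mul_le_mul_of_nonneg_left (hh x hx) (by positivity : (0 : ℝ) ≤ τ / 2)
    linarith
  have h2 := norm_integral_le_of_norm_le hg ((ae_restrict_iff' hB).2 (Eventually.of_forall h1))
  refine h2.trans ?_
  rw [integral_const_mul]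
  refine mul_le_mul_of_nonneg_left ?_ hc
  have e1 : ∫ x in B, 1 / (2 * τ) * (om x * X x) = 1 / (2 * τ) * ∫ x in B, om x * X x :=
    integral_const_mul _ _
  rw [integral_add (integrable_const _) (hX.const_mul _), e1, setIntegral_const, smul_eq_mul]
  have := mul_le_mul_of_nonneg_left hQ (by positivity : (0 : ℝ) ≤ 1 / (2 * τ))
  linarith

/-- the weighted size of the differences -/
theorem Uf_om {k J : ℕ} {ε : ℝ} {d : PD n N} {G : Set (V n)} (hN : NrmN k ε d G)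
    (hε5 : ε * (2 * cU n N) ≤ 1) {σ ν D q m s C Cs R kap Gs δ : ℝ} {ps : V n}
    (hSel : SelDN d σ (ν + D) q J Cs s R kap Gs δ ps) (hD : 0 ≤ D) (hR : 1 ≤ R) (hC0 : 0 ≤ C)
    (hCs : 1 ≤ Cs) (hs : 0 ≤ s) (hq : D + n + 4 ≤ q) (hke : δ * kap ^ m = 1) (hmν : m ≤ ν)
    {x : V n} (hxA : x ∈ Ac n (4 / 5) 22) :
    Uf d x ^ 2 * (omf n σ ν C R kap Gs x)⁻¹ ≤
      ((cU n N + 1) * (Cs * R ^ Cs * kap ^ s * δ)) ^ 2 * (2 * R ^ C) ^ (n + 4) *
        kap ^ (n + 4) := by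
  have hcU := cU_nn n N
  have hk1 := hSel.k1
  have hk0 : 0 < kap := by linarith
  have hR0 : 0 < R := by linarith
  have hlam1 : 1 ≤ lamf n σ C R kap Gs x := lamf_ge hR hC0 hk0 x
  have h1 := Uf_sel hSel hxA
  have hU0 := Uf_nn d x
  have hδ0 := hSel.δ0
  have hRC1 : 1 ≤ R ^ C := Real.one_le_rpow hR hC0
  have hAs : 0 ≤ Cs * R ^ Cs * kap ^ s * δ := by positivity
  have hAs2 : Cs * R ^ Cs * kap ^ s * δ ≤ (cU n N + 1) * (Cs * R ^ Cs * kap ^ s * δ) := by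
    have := mul_nonneg hcU hAs
    linarith
  have hAs3 : cU n N * (Cs * R ^ Cs * kap ^ s * δ) ≤
      (cU n N + 1) * (Cs * R ^ Cs * kap ^ s * δ) := by linarith
  rcases le_total (-Real.log kap) (R * (gx n σ x - Gs)) with hc | hc
  · have h2 := num_h (n := n) (ν := ν) (D := D) (q := q) (R := R) (Rc := R ^ C) (kap := kap)
      (t := gx n σ x - Gs) (lam := lamf n σ C R kap Gs x)
      (A := (cU n N + 1) * (Cs * R ^ Cs * kap ^ s * δ))
      (h := Uf d x) hD hR0.le hRC1 hk1 rfl (hAs.trans hAs2) hq (by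
        rw [abs_of_nonneg hU0]
        exact h1.trans (mul_le_mul_of_nonneg_right hAs3 (Real.exp_pos _).le))
    have h3 : (omf n σ ν C R kap Gs x)⁻¹ = Real.exp (2 * ν * R * (gx n σ x - Gs)) *
        lamf n σ C R kap Gs x ^ (n + 4) := by
      unfold omf
      rw [mul_inv, inv_inv, ← Real.exp_neg, neg_neg, max_eq_left hc]
      congr 2; ring
    rw [h3]
    exact h2
  · have hkk1 : kk n σ R kap Gs x ≤ 1 := by
      unfold kk
      calc kap * Real.exp (R * (gx n σ x - Gs)) ≤ kap * Real.exp (-Real.log kap) := by gcongr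
        _ = 1 := by rw [Real.exp_neg, Real.exp_log hk0, mul_inv_cancel₀ hk0.ne']
    have h3 : (omf n σ ν C R kap Gs x)⁻¹ = kap ^ (-(2 * ν)) *
        lamf n σ C R kap Gs x ^ (n + 4) := by
      unfold omf
      rw [mul_inv, inv_inv, ← Real.exp_neg, neg_neg, max_eq_right hc, Real.rpow_def_of_pos hk0]
      congr 2; ring
    rw [h3]
    have h4 : lamf n σ C R kap Gs x ≤ 2 * R ^ C := by
      unfold lamf
      linarith
    have h5 := num_low (n := n) (lam := lamf n σ C R kap Gs x) (h := Uf d x) (m := m) (ν := ν)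
      hRC1 hk1 hs hCs hR (by linarith) h4 hke hmν (by rw [abs_of_nonneg hU0]; exact Uf_eps hN hε5 x)
    refine h5.trans ?_
    refine mul_le_mul_of_nonneg_right (mul_le_mul_of_nonneg_right ?_ (by positivity))
      (by positivity)
    exact pow_le_pow_left₀ hAs hAs2 2

/-- **The pairing of the differences with the correction.** -/
theorem pairN (hI : IntN) (n N : ℕ) : ∃ (k : ℕ) (C8 ε8 : ℝ), 0 < C8 ∧ 0 < ε8 ∧
    ∀ (d : PD n N) (G : Set (V n)), NrmN k ε8 d G →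
    ∀ (σ Λ ν D q m s C Cs A a b c R kap Gs δ M2 : ℝ) (ps : V n) (W w : VV n → ℝ)
    (K0 K1 : KC n N),
    (∀ y ∈ Ac n (4 / 5) 22, ∀ r : ℝ, 0 < r →
      (n + 1) * r ≤ 1 / 10 → ∀ x ∈ Metric.ball y r, ∀ x' ∈ Metric.ball y r,
      |gx n σ x - gx n σ x'| ≤ Λ * dist x x') → 1 ≤ Λ → 0 ≤ D → D + n + 4 ≤ q → 3 ≤ C → 1 ≤ Cs →
    0 ≤ A → 1 ≤ R → 40 * (n + 1) + 8 * Λ ≤ R → 0 ≤ s → 0 ≤ ν → m ≤ ν → δ * kap ^ m = 1 →
    WBN d σ a b c C ν R kap Gs W w → SelDN d σ (ν + D) q 0 Cs s R kap Gs δ ps →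
    SmK univ K0 →
    (∀ p ∈ Ac n 1 12, ∀ l ≤ k, ∀ z ∈ Metric.ball (p, p) (2 / (R ^ C + kk n σ R kap Gs p)),
      ∀ a' b', ‖iteratedFDeriv ℝ l (fun z => (LxK d K0 z + RyK d K0 z) a' b') z‖ ≤
        A * Real.exp ((ν + D) * R * (gx n σ p - Gs)) *
          Real.exp (-((D + n + 4) * R * |gx n σ p - Gs|)) * (R ^ C + kk n σ R kap Gs p) ^ l) →
    SmK (Oc n ×ˢ Oc n) K1 → (∀ z ∈ Oc n ×ˢ Oc n, LxK d K1 z = -LxK d K0 z) →
    (∀ z ∈ Oc n ×ˢ Oc n, RyK d K1 z = -RyK d K0 z) →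
    IntegrableOn (fun z => Real.exp (-(2 * W z)) * nq (K1 z)) (Oc n ×ˢ Oc n) →
    ∫ z in Oc n ×ˢ Oc n, Real.exp (-(2 * W z)) * nq (K1 z) ≤ M2 →
    ∀ χ : V n → ℝ, (∀ x, 12 < √(HY.sq x) → χ x = 0) → (∀ x, |χ x| ≤ 1) →
    ∀ τ : ℝ, 0 < τ →
    ‖∫ x, (χ x : ℂ) * dgD d K1 x‖ ≤
      cdg n N * (τ / 2 * (((cU n N + 1) * (Cs * R ^ Cs * kap ^ s * δ)) ^ 2 *
        (2 * R ^ C) ^ (n + 4) * kap ^ (n + 4) * volume.real (Ac n 1 12)) + 1 / (2 * τ) *
          (C8 * (Real.exp (2 * C) * R ^ (2 * C) * M2 + A ^ 2 * (kap ^ (n + 4))⁻¹ *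
            volume.real (Ac n 1 12)))) := by
  obtain ⟨k, C8, ε8, hC8, hε8, hde⟩ := diagN hI n N
  obtain ⟨εb, hεb, hb2⟩ := b2_sm n N
  have hcU := cU_nn n N
  obtain ⟨ε, hεd⟩ : ∃ ε : ℝ, ε = min (min ε8 εb) (min 1 (1 / (2 * cU n N + 1))) := ⟨_, rfl⟩
  have hε1 : ε ≤ ε8 := by rw [hεd]; exact (min_le_left _ _).trans (min_le_left _ _)
  have hε2 : ε ≤ εb := by rw [hεd]; exact (min_le_left _ _).trans (min_le_right _ _)
  have hε3 : ε ≤ 1 := by rw [hεd]; exact (min_le_right _ _).trans (min_le_left _ _)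
  have hε4 : ε ≤ 1 / (2 * cU n N + 1) := by
    rw [hεd]; exact (min_le_right _ _).trans (min_le_right _ _)
  have hε0 : 0 < ε := by
    rw [hεd]
    exact lt_min (lt_min hε8 hεb) (lt_min one_pos (by positivity))
  have hε5 : ε * (2 * cU n N) ≤ 1 := by
    rw [le_div_iff₀ (by positivity)] at hε4
    nlinarith
  refine ⟨max k 2, C8, ε, hC8, hε0, ?_⟩
  intro d G hN σ Λ ν D q m s C Cs A a b c R kap Gs δ M2 ps W w K0 K1 hlip hΛ hD hq hC hCs hA hR
    hRn hs hν hmν hke hWB hSel hK0 hjt hK1 hL1 hL2 hint hM2 χ hχ0 hχ1 τ hτ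
  have hN8 : NrmN k ε8 d G := NrmN.mono hN (le_max_left _ _) hε1
  have hNb : NrmN 2 εb d G := NrmN.mono hN (le_max_right _ _) hε2
  have hb2s := hb2 d G hNb
  have hs1 := hN.rp.rl.d₁.ss
  have hs2 := hN.rp.rl.d₂.ss
  have hk1 := hSel.k1
  have hk0 : 0 < kap := by linarith
  have hR0 : 0 < R := by linarith
  have hn0 : (0 : ℝ) ≤ n := Nat.cast_nonneg n
  have hC0 : 0 ≤ C := by linarith
  obtain ⟨B, hB⟩ : ∃ B, B = Ac n 1 12 := ⟨_, rfl⟩
  have hBc : IsCompact B := by rw [hB]; exact isCompact_Ac _ _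
  have hBm : MeasurableSet B := hBc.isClosed.measurableSet
  have hlam1 : ∀ p, 1 ≤ lamf n σ C R kap Gs p := fun p => lamf_ge hR hC0 hk0 p
  have hom0 : ∀ p, 0 < omf n σ ν C R kap Gs p := fun p => omf_pos hR hC0 hk0 p
  have hRC : R ≤ R ^ C := by
    calc R = R ^ (1 : ℝ) := (Real.rpow_one R).symm
      _ ≤ R ^ C := Real.rpow_le_rpow_of_exponent_le hR (by linarith)
  have hlamR : ∀ p, 2 / lamf n σ C R kap Gs p ≤ 2 / R := by
    intro p
    have := kk_pos (n := n) (σ := σ) (R := R) (Gs := Gs) hk0 p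
    unfold lamf
    gcongr
    linarith
  have hr2 : (n + 1) * (2 / R) ≤ 1 / 20 := by
    rw [mul_div_assoc', div_le_iff₀ hR0]
    nlinarith
  have hsub : ∀ p ∈ B, Metric.ball (p, p) (2 / lamf n σ C R kap Gs p) ⊆ Oc n ×ˢ Oc n := by
    intro p hp z hz
    rw [hB] at hp
    have h0 : 0 ≤ 2 / lamf n σ C R kap Gs p := by
      have := hlam1 p; positivity
    have h1 : (n + 1) * (2 / lamf n σ C R kap Gs p) ≤ 1 / 20 :=
      (mul_le_mul_of_nonneg_left (hlamR p) (by positivity)).trans hr2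
    have hb := ball_Oc (a := 1) (b := 12) h0 (by linarith) (by linarith) hp
    obtain ⟨z1, z2⟩ := R2.H238.S3.mem_bpp.1 hz
    exact ⟨hb z1, hb z2⟩
  -- the right side
  obtain ⟨F, hF⟩ : ∃ F : KC n N, F = fun z => -(LxK d K0 z + RyK d K0 z) := ⟨_, rfl⟩
  have hFs : SmK univ F := by
    intro a' b'
    have e : (fun z => F z a' b') = fun z => -(LxK d K0 z a' b' + RyK d K0 z a' b') := by
      funext z
      rw [hF]
      simp only [Matrix.neg_apply, Matrix.add_apply]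
    rw [e]
    exact ((smk_Lk isOpen_univ hs1 hN.rp.rl.sβ hK0 a' b').add
      (smk_Rk isOpen_univ hs2 hb2s hK0 a' b')).neg
  obtain ⟨Mf, hMf⟩ : ∃ Mf : V n → ℝ, Mf = fun p => A * Real.exp ((ν + D) * R * (gx n σ p - Gs)) *
      Real.exp (-((D + n + 4) * R * |gx n σ p - Gs|)) := ⟨_, rfl⟩
  have hFj : ∀ p ∈ B, ∀ a' b', ∀ l ≤ k, ∀ z ∈ Metric.ball (p, p) (2 / lamf n σ C R kap Gs p),
      ‖iteratedFDeriv ℝ l (fun z => F z a' b') z‖ ≤ Mf p * lamf n σ C R kap Gs p ^ l := by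
    intro p hp a' b' l hl z hz
    have h1 := hjt p (by rw [← hB]; exact hp) l (hl.trans (le_max_left _ _)) z hz a' b'
    have h2 : (fun z => F z a' b') = -fun z => (LxK d K0 z + RyK d K0 z) a' b' := by
      funext z
      rw [hF]
      simp only [Matrix.neg_apply, Pi.neg_apply]
    rw [h2, iteratedFDeriv_neg_apply, norm_neg, hMf]
    exact h1
  have hRe : Real.exp (2 * C) * R ^ (2 * C) = Real.exp (2 * (C * (1 + Real.log R))) := by
    rw [Real.rpow_def_of_pos hR0, ← Real.exp_add]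
    congr 1
    ring
  have hRe0 : 0 ≤ Real.exp (2 * C) * R ^ (2 * C) := by positivity
  obtain ⟨g, hg⟩ : ∃ g : VV n → ℝ, g = fun z => Real.exp (2 * C) * R ^ (2 * C) *
      (Real.exp (-(2 * W z)) * nq (K1 z)) := ⟨_, rfl⟩
  have hgi : IntegrableOn g (Oc n ×ˢ Oc n) := by rw [hg]; exact hint.const_mul _
  have hg0 : ∀ z ∈ Oc n ×ˢ Oc n, 0 ≤ g z := fun z _ => by
    rw [hg]
    have := nq_nn' (K1 z)
    positivity
  have hgk : ∀ p ∈ B, ∀ z ∈ Metric.ball (p, p) (2 / lamf n σ C R kap Gs p),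
      omf n σ ν C R kap Gs p * lamf n σ C R kap Gs p ^ (n + 4) * nq (K1 z) ≤ g z := by
    intro p hp z hz
    have hpA : p ∈ Ac n (99 / 100) 15 := by
      rw [hB] at hp; exact ⟨by linarith [hp.1], by linarith [hp.2]⟩
    have h1 := hWB.W2 p hpA z hz
    have h2 : omf n σ ν C R kap Gs p * lamf n σ C R kap Gs p ^ (n + 4) =
        Real.exp (-(2 * ν * max (R * (gx n σ p - Gs)) (-Real.log kap))) := by
      unfold omf
      have : lamf n σ C R kap Gs p ^ (n + 4) ≠ 0 := by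
        have := hlam1 p; positivity
      field_simp
    rw [h2, hg]
    simp only
    rw [hRe, ← mul_assoc, ← Real.exp_add]
    refine mul_le_mul_of_nonneg_right (Real.exp_le_exp.2 ?_) (nq_nn' _)
    linarith
  have homM : ∀ p, omf n σ ν C R kap Gs p * Mf p ^ 2 ≤ A ^ 2 * (kap ^ (n + 4))⁻¹ := by
    intro p
    have hl0 : 0 < lamf n σ C R kap Gs p := by linarith [hlam1 p]
    have h1 : omf n σ ν C R kap Gs p ≤ Real.exp (-(2 * ν * R * (gx n σ p - Gs))) *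
        (lamf n σ C R kap Gs p ^ (n + 4))⁻¹ := by
      unfold omf
      refine mul_le_mul_of_nonneg_right (Real.exp_le_exp.2 ?_) (by positivity)
      have := mul_le_mul_of_nonneg_left (le_max_left (R * (gx n σ p - Gs)) (-Real.log kap))
        (by positivity : 0 ≤ 2 * ν)
      linarith
    refine (mul_le_mul_of_nonneg_right h1 (sq_nonneg _)).trans ?_
    rw [hMf]
    refine num_om (n := n) (ν := ν) (D := D) (t := gx n σ p - Gs) hD hR0.le hk0 ?_
    have : 0 < R ^ C := by positivity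
    unfold lamf kk
    linarith
  have hMfm : Measurable Mf := by
    rw [hMf]
    have := gx_meas (n := n) σ
    fun_prop
  have hBfin : IsFiniteMeasure (volume.restrict B) :=
    ⟨by rw [Measure.restrict_apply_univ]; exact hBc.measure_lt_top⟩
  have hMi : IntegrableOn (fun p => omf n σ ν C R kap Gs p * Mf p ^ 2) B := by
    refine Integrable.of_bound (((omf_meas σ ν C R kap Gs).mul
      (hMfm.pow_const 2)).aestronglyMeasurable) (A ^ 2 * (kap ^ (n + 4))⁻¹)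
      (Eventually.of_forall fun p => ?_)
    rw [Real.norm_eq_abs, abs_of_nonneg (by have := hom0 p; positivity)]
    exact homM p
  have hMf0 : ∀ p ∈ B, 0 ≤ Mf p := fun p _ => by rw [hMf]; positivity
  have key := hde d G hN8 B (Oc n ×ˢ Oc n) (lamf n σ C R kap Gs)
    (omf n σ ν C R kap Gs) Mf K1 F g hBm isOpen_OO (lamf_meas σ C R kap Gs)
    (fun p _ => hlam1 p) (by rw [hB]; exact slow hlip hR hC hk0 hRn hΛ) hsub hK1
    (fun a' b' => (hFs a' b').mono (subset_univ _))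
    (fun z hz => by rw [hL1 z hz, hL2 z hz, hF]; simp only [neg_add]) hMf0 hFj
    (omf_meas σ ν C R kap Gs) (fun p _ => (hom0 p).le) hgi hg0 hgk hMi
  have hQ : ∫ p in B, omf n σ ν C R kap Gs p * Xf K1 p ≤
      C8 * (Real.exp (2 * C) * R ^ (2 * C) * M2 + A ^ 2 * (kap ^ (n + 4))⁻¹ * volume.real B) := by
    refine key.2.trans (mul_le_mul_of_nonneg_left (add_le_add ?_ ?_) hC8.le)
    · rw [hg, integral_const_mul]
      exact mul_le_mul_of_nonneg_left hM2 hRe0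
    · calc ∫ p in B, omf n σ ν C R kap Gs p * Mf p ^ 2
          ≤ ∫ _p in B, A ^ 2 * (kap ^ (n + 4))⁻¹ :=
            integral_mono hMi (integrable_const _) homM
        _ = _ := by rw [setIntegral_const, smul_eq_mul, mul_comm]
  rw [← hB]
  refine int_densN hBm hBc.measure_lt_top.ne (h := Uf d) (X := Xf K1)
    (om := omf n σ ν C R kap Gs) (cdg_nn n N) hτ ?_ (fun x _ => Xf_nn K1 x) ?_
    (fun x _ => hom0 x) ?_ key.1 hQ
  · intro x hx
    by_cases h1 : √(HY.sq x) ≤ 12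
    · have h2 : √(HY.sq x) < 1 := by
        by_contra hcon
        push Not at hcon
        exact hx (by rw [hB]; exact ⟨hcon, h1⟩)
      have h3 : x ∈ Eb (0 : V n) 24 := (mem_Eb0 (by norm_num)).2 (by linarith)
      have h4 : x ∉ Gᶜ := fun h => h (hN.b1 ((mem_Eb0 one_pos).2 h2))
      rw [dgD_zero K1 (hN.rp.rl.os x h3 h4) (hN.rp.rl.oP x h3 h4)
        (fun i => hN.rp.rl.oG i x h3 h4), mul_zero]
    · rw [hχ0 x (not_le.1 h1)]
      simp
  · intro x _
    rw [norm_mul, Complex.norm_real, Real.norm_eq_abs]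
    calc |χ x| * ‖dgD d K1 x‖ ≤ 1 * ‖dgD d K1 x‖ :=
          mul_le_mul_of_nonneg_right (hχ1 x) (norm_nonneg _)
      _ ≤ cdg n N * (Uf d x * √(Xf K1 x)) := by
          rw [one_mul]
          exact dgD_bd (CoP_of hε3 hN x) (Uf_dip d x) (Uf_nn d x) (Xf_dxy K1 x) (Xf_dx K1 x)
      _ ≤ cdg n N * |Uf d x * √(Xf K1 x)| :=
          mul_le_mul_of_nonneg_left (le_abs_self _) (cdg_nn n N)
  · intro x hx
    have hxA : x ∈ Ac n (4 / 5) 22 := by
      rw [hB] at hx; exact ⟨by linarith [hx.1], by linarith [hx.2]⟩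
    exact Uf_om hN hε5 hSel hD hR hC0 hCs hs hq hke hmν hxA

end Vale.Agent.P088.S4.H972
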