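import Vale.Agent.P088.R2.H972.P5N.Pair
import Vale.Agent.P088.R2.H972.P5N.Far
import Vale.Agent.P088.R2.H972.P5N.Num

/-!
# P088, stage 4, row P5N: the assembly
-/

open MeasureTheory Set Filter Topology
open scoped ContDiff Matrix

noncomputable section

namespace Vale.Agent.P088.S4.H972

open Vale.Agent.P088.LR Vale.Agent.P088.LR.U Vale.Agent.P088.LR.H158
open Vale.Agent.P088.PJ
open Vale.Agent.P088.HY (VV)
open Vale.Agent.P088.HY.T3 (Eb e0 Ao Ac iv mem_Eb0 isCompact_Ac rt_ball)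
open Vale.Agent.P088.HY.T4 (gx kk Oc Zq cg Lvl ball_Oc isOpen_OO isOpen_Oc Ac_sub_Oc
  num_sum final_num exists_chi gx_lip)
open Vale.Agent.P088.PJ.H359 (Lk_add)

variable {n N : ℕ}

theorem SelDN.monoC {d : PD n N} {σ ν q : ℝ} {J : ℕ} {C C' s R kap Gs δ : ℝ} {ps : V n}
    (hR : 1 ≤ R) (hC : 0 ≤ C) (hCC : C ≤ C')
    (h : SelDN d σ ν q J C s R kap Gs δ ps) : SelDN d σ ν q J C' s R kap Gs δ ps := by
  have hk0 : 0 < kap := by linarith [h.k1]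
  have hR0 : 0 < R := by linarith
  have hδ := h.δ0
  have e1 : R ^ C ≤ R ^ C' := Real.rpow_le_rpow_of_exponent_le hR hCC
  have hC' : 0 ≤ C' := hC.trans hCC
  have key : ∀ x, C * R ^ C * kap ^ s * δ * Real.exp (-(q * R * |gx n σ x - Gs|)) ≤
      C' * R ^ C' * kap ^ s * δ * Real.exp (-(q * R * |gx n σ x - Gs|)) := fun x => by
    gcongr
  exact ⟨h.pm, h.gs, h.gs0, h.δ0, h.δ1, h.δe, h.k1, h.ke,
    fun i j l hl x hx => (h.js i j l hl x hx).trans (key x),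
    fun a b l hl x hx => (h.jP a b l hl x hx).trans (key x),
    fun i a b l hl x hx => (h.jD i a b l hl x hx).trans (key x),
    fun i a b l hl x hx => (h.jG i a b l hl x hx).trans (key x)⟩

/-- the upper bound of the main term -/
theorem main_ineqN {d : PD n N} {G : Set (V n)} {k : ℕ} {ε : ℝ} (hN : NrmN k ε d G)
    (hN1 : 1 ≤ N) {σ a b c C₁ C₄ s ν D R kap Gs δ lam Ci Cf B Bχ T₁ : ℝ} {k₈ kI : ℕ}
    {K0 : KC n N} {W w : VV n → ℝ} {χ : V n → ℝ}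
    (hQ : QKN d σ a b c C₁ C₄ s ν D R kap Gs δ k₈ K0)
    (hWB : WBN d σ a b c C₁ ν R kap Gs W w)
    (hlam : 4 ≤ lam) (hlθ : (n + 1) * (2 / lam) ≤ 1 / 1000) (hCi : 0 ≤ Ci)
    (hi : IntC d kI Ci) (hCf : Cf ^ 2 = Ci * lam ^ n * N)
    (hχs : ContDiff ℝ ∞ χ) (hχ0 : ∀ x ∉ Ac n (998 / 1000) 12, χ x = 0)
    (hχ1 : ∀ x ∈ Ao n (999 / 1000) 11, χ x = 1) (hχ : ∀ x, |χ x| ≤ 1)
    (hBχ : ∀ i x, |LR.pd i χ x| ≤ Bχ)
    (hfar : ∀ (K : KC n N) (S : ℝ), 0 ≤ S → SmK (Oc n ×ˢ Oc n) K →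
      (∀ z ∈ Oc n ×ˢ Oc n, LxK d K z = 0) → (∀ z ∈ Oc n ×ˢ Oc n, RyK d K z = 0) →
      (∀ x ∈ Ac n (991 / 1000) 20, ∀ y ∈ Ac n 10 20, ∀ a b,
        ‖K (x, y) a b‖ ≤ S ∧ ‖K (y, x) a b‖ ≤ S) →
      ‖∫ x, (χ x : ℂ) * dgD d K x‖ ≤ B * S)
    (hpair : ∀ K1 : KC n N, SmK (Oc n ×ˢ Oc n) K1 →
      (∀ z ∈ Oc n ×ˢ Oc n, LxK d K1 z = -LxK d K0 z) →
      (∀ z ∈ Oc n ×ˢ Oc n, RyK d K1 z = -RyK d K0 z) →
      IntegrableOn (fun z => Real.exp (-(2 * W z)) * nq (K1 z)) (Oc n ×ˢ Oc n) →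
      ∫ z in Oc n ×ˢ Oc n, Real.exp (-(2 * W z)) * nq (K1 z) ≤
        C₄ * R ^ C₄ * kap ^ (4 * s) * δ ^ 2 * kap ^ (-(n + 4 + a) : ℝ) →
      ‖∫ x, (χ x : ℂ) * dgD d K1 x‖ ≤ T₁) :
    ItN d σ (ν + D) R kap Gs ≤ B * (Cf ^ 2 * √(2 * ((C₄ * Real.exp (-(ν * R / 2))) ^ 2 +
      Real.exp (2 * -(c * R)) *
        (C₄ * R ^ C₄ * kap ^ (4 * s) * δ ^ 2 * kap ^ (-(n + 4 + a) : ℝ))))) + T₁ +
      C₄ * (1 + Bχ) * Real.exp (-(ν * R / 2)) := by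
  obtain ⟨K1, hK1, hL1, hL2, hint, hle⟩ := hWB.sol K0 hQ.sm hQ.cs hQ.su
  have hM2 := hle.trans (hQ.er W w hWB)
  have hK0 : SmK (Oc n ×ˢ Oc n) K0 := fun a b => (hQ.sm a b).mono (subset_univ _)
  have hT1 := hpair K1 hK1 hL1 hL2 hint hM2
  have hT0 := hQ.pr χ hχs hχ0 hχ1 hχ Bχ hBχ
  have hK : SmK (Oc n ×ˢ Oc n) (fun z => K0 z + K1 z) := PJ.H359.smk_add hK0 hK1
  have hT := hfar (fun z => K0 z + K1 z) _
    (by positivity : 0 ≤ Cf ^ 2 * √(2 * ((C₄ * Real.exp (-(ν * R / 2))) ^ 2 +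
      Real.exp (2 * -(c * R)) *
        (C₄ * R ^ C₄ * kap ^ (4 * s) * δ ^ 2 * kap ^ (-(n + 4 + a) : ℝ))))) hK
    (fun z hz => by
      show Lk d.s₁ d.β (fun z => K0 z + K1 z) z = 0
      have e3 : Lk d.s₁ d.β K1 z = -Lk d.s₁ d.β K0 z := hL1 z hz
      rw [Lk_add isOpen_OO hK0 hK1 z hz, e3]
      abel)
    (fun z hz => by
      show Rk d.s₂ (b2 d) (fun z => K0 z + K1 z) z = 0
      have e3 : Rk d.s₂ (b2 d) K1 z = -Rk d.s₂ (b2 d) K0 z := hL2 z hz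
      rw [Rk_add isOpen_OO hK0 hK1 z hz, e3]
      abel)
    (fun x hx y hy a' b' => by
      rw [hCf]
      refine far_allN hi hCi (θ := 1 / 100) (by norm_num) le_rfl hlam
        (hlθ.trans (by norm_num)) hN1 hQ.sm hK1 hL1 hL2 hint hM2 (fun x hx y hy => ?_) hQ.fa
        ?_ hy a' b'
      · exact hWB.W3 x ⟨by linarith [hx.1], hx.2⟩ y hy
      · exact ⟨by linarith [hx.1], hx.2⟩)
  have hadd := dgD_int_add hN hχs.continuous (by norm_num) hχ0 hK0 hK1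
  rw [hadd] at hT
  obtain ⟨X0, hX0⟩ : ∃ X0, X0 = ∫ x, (χ x : ℂ) * dgD d K0 x := ⟨_, rfl⟩
  obtain ⟨X1, hX1⟩ : ∃ X1, X1 = ∫ x, (χ x : ℂ) * dgD d K1 x := ⟨_, rfl⟩
  rw [← hX0] at hT hT0
  rw [← hX1] at hT hT1
  have b1 : ‖X0‖ ≤ ‖X0 + X1‖ + ‖X1‖ := by
    have := norm_sub_le (X0 + X1) X1
    rwa [add_sub_cancel_right] at this
  have b2 : ItN d σ (ν + D) R kap Gs ≤ ‖(ItN d σ (ν + D) R kap Gs : ℂ)‖ := by
    rw [Complex.norm_real, Real.norm_eq_abs]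
    exact le_abs_self _
  have b3 : ‖(ItN d σ (ν + D) R kap Gs : ℂ)‖ ≤ ‖X0‖ +
      ‖X0 - (ItN d σ (ν + D) R kap Gs : ℂ)‖ := by
    have := norm_sub_le X0 (X0 - (ItN d σ (ν + D) R kap Gs : ℂ))
    rwa [sub_sub_cancel] at this
  linarith

end Vale.Agent.P088.S4.H972
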